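import Vale.Agent.P088.R2.H313.PhiE
import Vale.Agent.P088.R2.H404.Spec4

/-!
# P088, stage 3: growth of the weight (real-variable part)

Bounds of the slope function `Φ` of `IsPhiU` by its asymptotes, bounds of the level function `gy`
on annuli.
-/

open Set Filter Topology

noncomputable section

namespace Vale.Agent.P088.R2.H281.EP

open Vale.Agent.P088.LR Vale.Agent.P088.HY Vale.Agent.P088.HY.T3 Vale.Agent.P088.HY.T4

/-- The growth of the slope function: `M0 ≤ Φ' ≤ Nt`, `Nt - Φ' ≤ B e⁻ᵘ`. -/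
structure Gr (M0 Nt B : ℝ) (Φ : ℝ → ℝ) : Prop where
  df : Differentiable ℝ Φ
  m0 : 0 < M0
  B0 : 0 ≤ B
  lo : ∀ u, M0 ≤ deriv Φ u
  hi : ∀ u, deriv Φ u ≤ Nt
  dc : ∀ u, Nt - deriv Φ u ≤ B * Real.exp (-u)

variable {M0 Nt B : ℝ} {Φ : ℝ → ℝ}

theorem Gr.Nt0 (h : Gr M0 Nt B Φ) : 0 < Nt := h.m0.trans_le ((h.lo 0).trans (h.hi 0))

theorem Gr.mono (h : Gr M0 Nt B Φ) : Monotone Φ :=
  monotone_of_deriv_nonneg h.df fun u => h.m0.le.trans (h.lo u)

theorem Gr.step (h : Gr M0 Nt B Φ) {u t : ℝ} (hut : u ≤ t) : Φ u ≤ Φ t - M0 * (t - u) := by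
  have hm : Monotone fun v => Φ v - M0 * v := by
    have hd : Differentiable ℝ fun v : ℝ => M0 * v := (differentiable_id.const_mul M0)
    refine monotone_of_deriv_nonneg (h.df.sub hd) fun v => ?_
    have h1 : HasDerivAt (fun v => Φ v - M0 * v) (deriv Φ v - M0 * 1) v :=
      (h.df v).hasDerivAt.sub ((hasDerivAt_id v).const_mul M0)
    rw [h1.deriv]
    linarith [h.lo v]
  have := hm hut
  simp only at this
  linarith

theorem Gr.anti (h : Gr M0 Nt B Φ) : Antitone fun v => Φ v - Nt * v := by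
  have hd : Differentiable ℝ fun v : ℝ => Nt * v := (differentiable_id.const_mul Nt)
  refine antitone_of_deriv_nonpos (h.df.sub hd) fun v => ?_
  have h1 : HasDerivAt (fun v => Φ v - Nt * v) (deriv Φ v - Nt * 1) v :=
    (h.df v).hasDerivAt.sub ((hasDerivAt_id v).const_mul Nt)
  rw [h1.deriv]
  linarith [h.hi v]

theorem Gr.mono2 (h : Gr M0 Nt B Φ) : Monotone fun v => Φ v - Nt * v - B * Real.exp (-v) := by
  have hh : ∀ v, HasDerivAt (fun v => Φ v - Nt * v - B * Real.exp (-v))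
      (deriv Φ v - Nt * 1 - B * (Real.exp (-v) * -1)) v := fun v =>
    ((h.df v).hasDerivAt.sub ((hasDerivAt_id v).const_mul Nt)).sub
      (((hasDerivAt_id v).neg.exp).const_mul B)
  refine monotone_of_deriv_nonneg (fun v => (hh v).differentiableAt) fun v => ?_
  rw [(hh v).deriv]
  linarith [h.dc v]

/-- The lower tangent. -/
theorem Gr.low (h : Gr M0 Nt B Φ) (u t : ℝ) :
    Nt * (u - t) - B * Real.exp (-t) ≤ Φ u - Φ t := by
  have hB := h.B0
  rcases le_total u t with hut | hut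
  · have h1 := h.anti hut
    have h2 : 0 ≤ B * Real.exp (-t) := mul_nonneg hB (Real.exp_pos _).le
    simp only at h1
    linarith
  · have h1 := h.mono2 hut
    have h2 : 0 ≤ B * Real.exp (-u) := mul_nonneg hB (Real.exp_pos _).le
    simp only at h1
    linarith

theorem Gr.low0 (h : Gr M0 Nt B Φ) (u : ℝ) {t : ℝ} (ht : 0 ≤ t) :
    Nt * (u - t) - B ≤ Φ u - Φ t := by
  have h1 := h.low u t
  have h2 : B * Real.exp (-t) ≤ B * 1 :=
    mul_le_mul_of_nonneg_left (Real.exp_le_one_iff.2 (by linarith)) h.B0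
  linarith

/-- The upper bound. -/
theorem Gr.upp (h : Gr M0 Nt B Φ) (u : ℝ) {t : ℝ} (_ht : 0 ≤ t) :
    Φ u - Φ t ≤ Nt * (max u 0 - t) + B := by
  have hB := h.B0
  have h0 : Φ u ≤ Φ (max u 0) := h.mono (le_max_left _ _)
  have hv0 : 0 ≤ max u 0 := le_max_right _ _
  have key : Φ (max u 0) - Φ t ≤ Nt * (max u 0 - t) + B := by
    rcases le_total (max u 0) t with hut | hut
    · have h1 := h.mono2 hut
      simp only at h1
      have h2 : B * Real.exp (-(max u 0)) ≤ B * 1 :=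
        mul_le_mul_of_nonneg_left (Real.exp_le_one_iff.2 (by linarith)) hB
      have h3 : 0 ≤ B * Real.exp (-t) := mul_nonneg hB (Real.exp_pos _).le
      linarith
    · have h1 := h.anti hut
      simp only at h1
      linarith
  linarith

/-- From `IsPhiU`. -/
theorem gr_of {ρ κ nm ν C1 C2 C3 al be Cb : ℝ} {Cd : ℕ → ℝ} {M0 : ℝ} {Φ : ℝ → ℝ}
    (hM : 0 < M0) (h : H313.Ph.IsPhiU ρ κ nm ν C1 C2 C3 al be Cb Cd M0 Φ) :
    ∃ Nt B : ℝ, Nt ≤ Cb * M0 ∧ Gr M0 Nt B Φ := by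
  obtain ⟨Nt, B, h0, h1, h2⟩ := h.dc
  refine ⟨Nt, max B 0, h1, h.sm.differentiable (by simp), hM, le_max_right _ _, h.n1,
    fun u => by linarith [(h2 u).1], fun u => (h2 u).2.trans ?_⟩
  exact mul_le_mul_of_nonneg_right (le_max_left _ _) (Real.exp_pos _).le

end Vale.Agent.P088.R2.H281.EP
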