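import Vale.Agent.P088.R2.H281.EP.Wb
import Vale.Agent.P088.R2.H281.EP.Gro
import Vale.Agent.P088.R2.H31.EP.Wgt

/-!
# P088, stage 3, EST': `r²` in the unit chart, and the bounds `Wb` of the weight
-/

open Set Filter Topology
open scoped ContDiff Matrix

noncomputable section

namespace Vale.Agent.P088.R2.H281.EP

open Vale.Agent.P088.LR Vale.Agent.P088.HY Vale.Agent.P088.HY.T3 Vale.Agent.P088.HY.T4
open Vale.Agent.P088.R2.H269 (ky Zi)
open Vale.Agent.P088.R2.H31.EP (gi r2)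
open Vale.Agent.P088.R2.H464.Cu (mid dif rq bf)

variable {n : ℕ}

/-! ## The inverse of a matrix near `1` -/

theorem bf_mulVec (A : Matrix (Fin n) (Fin n) ℝ) (q : V n) : bf A q q = ∑ i, q i * (A *ᵥ q) i := by
  unfold bf Matrix.mulVec dotProduct
  refine Finset.sum_congr rfl fun i _ => ?_
  rw [Finset.mul_sum]
  exact Finset.sum_congr rfl fun j _ => by ring

theorem sq_neg' (x : V n) : HY.sq (-x) = HY.sq x := by
  simp only [HY.sq, Pi.neg_apply]
  exact Finset.sum_congr rfl fun i _ => by ring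

theorem dot_neg' (x y : V n) : ∑ i, x i * (-y) i = -∑ i, x i * y i := by
  rw [← Finset.sum_neg_distrib]
  exact Finset.sum_congr rfl fun i _ => by simp only [Pi.neg_apply]; ring

theorem sq_add' (x y : V n) : HY.sq (x + y) = HY.sq x + HY.sq y + 2 * ∑ i, x i * y i := by
  simp only [HY.sq, Pi.add_apply]
  rw [Finset.mul_sum, ← Finset.sum_add_distrib, ← Finset.sum_add_distrib]
  exact Finset.sum_congr rfl fun i _ => by ring

theorem sq_mulVec {A : Matrix (Fin n) (Fin n) ℝ} {ε : ℝ} (hA : ∀ i j, |A i j| ≤ ε) (v : V n) :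
    HY.sq (A *ᵥ v) ≤ (n * ε) ^ 2 * HY.sq v := by
  have h1 : ∀ i ∈ Finset.univ, (A *ᵥ v) i ^ 2 ≤ n * ε ^ 2 * HY.sq v := by
    intro i _
    have h2 := Finset.sum_mul_sq_le_sq_mul_sq Finset.univ (fun j => A i j) v
    have h3 : ∑ j, A i j ^ 2 ≤ n * ε ^ 2 := by
      have : ∀ j ∈ Finset.univ, A i j ^ 2 ≤ ε ^ 2 := fun j _ => by
        rw [← sq_abs]
        exact pow_le_pow_left₀ (abs_nonneg _) (hA i j) 2
      have := Finset.sum_le_sum this
      rw [Finset.sum_const, Finset.card_univ, Fintype.card_fin, nsmul_eq_mul] at this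
      exact this
    calc (A *ᵥ v) i ^ 2 = (∑ j, A i j * v j) ^ 2 := rfl
      _ ≤ (∑ j, A i j ^ 2) * ∑ j, v j ^ 2 := h2
      _ ≤ n * ε ^ 2 * HY.sq v := mul_le_mul_of_nonneg_right h3 (sq_nn v)
  have h2 := Finset.sum_le_sum h1
  rw [Finset.sum_const, Finset.card_univ, Fintype.card_fin, nsmul_eq_mul] at h2
  calc HY.sq (A *ᵥ v) = ∑ i, (A *ᵥ v) i ^ 2 := rfl
    _ ≤ n * (n * ε ^ 2 * HY.sq v) := h2
    _ = _ := by ring

/-- The quadratic form of the inverse of a matrix near `1`. -/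
theorem bf_inv {s : Matrix (Fin n) (Fin n) ℝ} {ε : ℝ}
    (hs : ∀ i j, |s i j - (1 : Matrix (Fin n) (Fin n) ℝ) i j| ≤ ε) (h0 : 0 ≤ ε)
    (hε : n * ε ≤ 1 / 100) (q : V n) : |bf s⁻¹ q q - HY.sq q| ≤ 1 / 50 * HY.sq q := by
  -- `s` is invertible
  have hinj : ∀ v : V n, s *ᵥ v = 0 → v = 0 := by
    intro v hv
    have h1 : (s - 1) *ᵥ v = -v := by
      rw [Matrix.sub_mulVec, hv, Matrix.one_mulVec, zero_sub]
    have h2 := sq_mulVec (A := s - 1) (fun i j => by simpa using hs i j) v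
    rw [h1] at h2
    have h3 := sq_neg' v
    rw [h3] at h2
    have h4 : (n * ε) ^ 2 ≤ (1 / 100) ^ 2 := pow_le_pow_left₀ (by positivity) hε 2
    have h5 : HY.sq v = 0 := by
      have := sq_nn v
      nlinarith
    funext i
    have h6 : v i ^ 2 ≤ HY.sq v :=
      Finset.single_le_sum (f := fun i => v i ^ 2) (fun _ _ => sq_nonneg _) (Finset.mem_univ i)
    rw [h5] at h6
    simpa using pow_eq_zero_iff (two_ne_zero) |>.1 (le_antisymm h6 (sq_nonneg _))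
  have hdet : IsUnit s.det := by
    rw [isUnit_iff_ne_zero]
    intro hd
    obtain ⟨v, hv, hv2⟩ := Matrix.exists_mulVec_eq_zero_iff.2 hd
    exact hv (hinj v hv2)
  obtain ⟨v, hv⟩ : ∃ v : V n, v = s⁻¹ *ᵥ q := ⟨_, rfl⟩
  have hsv : s *ᵥ v = q := by
    rw [hv, Matrix.mulVec_mulVec, Matrix.mul_nonsing_inv _ hdet, Matrix.one_mulVec]
  have hdv : (s - 1) *ᵥ v = q - v := by
    rw [Matrix.sub_mulVec, hsv, Matrix.one_mulVec]
  have h2 := sq_mulVec (A := s - 1) (fun i j => by simpa using hs i j) v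
  rw [hdv] at h2
  have h4 : (n * ε) ^ 2 ≤ (1 / 100) ^ 2 := pow_le_pow_left₀ (by positivity) hε 2
  have h5 : HY.sq (q - v) ≤ (1 / 100) ^ 2 * HY.sq v :=
    h2.trans (mul_le_mul_of_nonneg_right h4 (sq_nn v))
  have h6 : √(HY.sq (q - v)) ≤ 1 / 100 * √(HY.sq v) := by
    apply Real.sqrt_le_iff.2 ⟨by positivity, ?_⟩
    rw [mul_pow, Real.sq_sqrt (sq_nn v)]
    exact h5
  have h7 : √(HY.sq v) ≤ √(HY.sq q) + √(HY.sq (q - v)) := by
    apply Real.sqrt_le_iff.2 ⟨by positivity, ?_⟩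
    have e : HY.sq v = HY.sq (q - (q - v)) := by congr 1; abel
    rw [e, sq_sub']
    have h8 := cs q (-(q - v))
    have h9 := sq_neg' (q - v)
    have h10 := dot_neg' q (q - v)
    rw [h9, h10] at h8
    have e1 := Real.sq_sqrt (sq_nn q)
    have e2 := Real.sq_sqrt (sq_nn (q - v))
    nlinarith
  have hv2 : √(HY.sq (q - v)) ≤ 1 / 99 * √(HY.sq q) := by linarith
  -- the quadratic form
  have e3 : bf s⁻¹ q q - HY.sq q = ∑ i, q i * (-(q - v)) i := by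
    rw [bf_mulVec, ← hv]
    simp only [HY.sq]
    rw [← Finset.sum_sub_distrib]
    exact Finset.sum_congr rfl fun i _ => by simp only [Pi.neg_apply, Pi.sub_apply]; ring
  have h8 := cs q (-(q - v))
  have h8' := cs q (q - v)
  have h9 := sq_neg' (q - v)
  rw [h9] at h8
  have h10 : ∑ i, q i * (q - v) i = -∑ i, q i * (-(q - v)) i := by
    rw [dot_neg' q (q - v), neg_neg]
  rw [h10] at h8'
  have e1 := Real.sq_sqrt (sq_nn q)
  have h11 : √(HY.sq q) * √(HY.sq (q - v)) ≤ 1 / 50 * HY.sq q := by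
    have := mul_le_mul_of_nonneg_left hv2 (Real.sqrt_nonneg (HY.sq q))
    nlinarith [sq_nn q]
  rw [e3, abs_le]
  constructor <;> linarith

/-- `r²` at `R z`, `s₁` in rate units. -/
theorem r2_bd {s₁ : MF n} {ε R : ℝ}
    (hs : ∀ x i j, |s₁ x i j - (1 : Matrix (Fin n) (Fin n) ℝ) i j| ≤ ε) (h0 : 0 ≤ ε)
    (hε : n * ε ≤ 1 / 100) (z : VV n) :
    |r2 (gi s₁) (R • z) - R ^ 2 * HY.sq (z.1 - z.2)| ≤ 1 / 50 * (R ^ 2 * HY.sq (z.1 - z.2)) := by
  have e1 : r2 (gi s₁) (R • z) =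
      bf (gi s₁ (mid (R • z))) (R • (z.1 - z.2)) (R • (z.1 - z.2)) := by
    unfold r2 rq
    have : dif (R • z) = R • (z.1 - z.2) := by
      unfold dif
      simp [smul_sub]
    rw [this]
    ring
  have e2 : HY.sq (R • (z.1 - z.2)) = R ^ 2 * HY.sq (z.1 - z.2) := by
    simp only [HY.sq, Pi.smul_apply, smul_eq_mul, mul_pow, Finset.mul_sum]
  rw [e1, ← e2]
  exact bf_inv (fun i j => hs _ i j) h0 hε _

/-! ## The growth of the slope part, with a second growth above `T` -/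

/-- The growth of the slope part: `Φ' ≥ M0`, asymptotes with the slope `Nt` (the upper one for
`u ≤ T`). -/
structure Gr2 (M0 Nt B T : ℝ) (Φ : ℝ → ℝ) : Prop where
  lo : ∀ u t, 0 ≤ t → t ≤ T → Nt * (u - t) - B ≤ Φ u - Φ t
  up : ∀ u t, 0 ≤ t → u ≤ T → Φ u - Φ t ≤ Nt * (max u 0 - t) + B
  st : ∀ u t, u ≤ t → Φ u ≤ Φ t - M0 * (t - u)

theorem Gr.gr2 {M0 Nt B : ℝ} {Φ : ℝ → ℝ} (h : Gr M0 Nt B Φ) (T : ℝ) : Gr2 M0 Nt B T Φ where
  lo u _ ht _ := h.low0 u ht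
  up u _ ht _ := h.upp u ht
  st _ _ hu := h.step hu

/-- The growth of a function close to `Φ` below `T` and larger above. -/
theorem Gr.gr2' {M0 Nt B T D : ℝ} {Φ Φ2 : ℝ → ℝ} (h : Gr M0 Nt B Φ) (hd : Differentiable ℝ Φ2)
    (h1 : ∀ u, M0 ≤ deriv Φ2 u) (h2 : ∀ u, Φ u ≤ Φ2 u) (h3 : ∀ u, u ≤ T → Φ2 u ≤ Φ u + D) :
    Gr2 M0 Nt (B + D) T Φ2 where
  lo u t ht hT := by
    have := h.low0 u ht
    have := h2 u
    have := h3 t hT
    linarith
  up u t ht hT := by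
    have := h.upp u ht
    have := h2 t
    have := h3 u hT
    linarith
  st u t hut := by
    have hm : Monotone fun v => Φ2 v - M0 * v := by
      have hd' : Differentiable ℝ fun v : ℝ => M0 * v := (differentiable_id.const_mul M0)
      refine monotone_of_deriv_nonneg (hd.sub hd') fun v => ?_
      have h1' : HasDerivAt (fun v => Φ2 v - M0 * v) (deriv Φ2 v - M0 * 1) v :=
        (hd v).hasDerivAt.sub ((hasDerivAt_id v).const_mul M0)
      rw [h1'.deriv]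
      linarith [h1 v]
    have := hm hut
    simp only at this
    linarith

/-! ## The bounds of the weight -/

/-- Bounds of the stiff part `st u s`, `s = r²`. -/
structure Sb (n : ℕ) (R c0 C0 D0 : ℝ) (st : ℝ → ℝ → ℝ) : Prop where
  lo : ∀ u s : ℝ, 0 ≤ s → s ≤ 2 * n → c0 * (Real.exp u * s) ≤ st u s
  up : ∀ u s : ℝ, 0 ≤ s → s ≤ 1 → st u s ≤ C0 * (Real.exp u * s)
  fa : ∀ u s : ℝ, 0 ≤ s → √s ≤ 3 * R → u + 4 / 5 * √s ≤ -(R / 20) → st u s ≤ D0

/-- **The bounds of the weight.** Only the values at `|x|, |y| ≤ 10 / 9` play a role. -/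
theorem wb_of {σ R kap Gs T Nt M0 B c0 C0 D0 ε : ℝ} {Φ μ χ : ℝ → ℝ} {st : ℝ → ℝ → ℝ}
    {l : V n → ℝ} {s₁ : MF n} {W : VV n → ℝ} (hR : 0 < R)
    (hs : ∀ x i j, |s₁ x i j - (1 : Matrix (Fin n) (Fin n) ℝ) i j| ≤ ε) (h0 : 0 ≤ ε)
    (hε : n * ε ≤ 1 / 100) (hΦ : Gr2 M0 Nt B T Φ) (hst : Sb n R c0 C0 D0 st)
    (hμ : ∀ t, |μ t| ≤ 1) (hχ : ∀ t, 0 ≤ χ t ∧ χ t ≤ 1)
    (ht0 : 0 ≤ Real.log (kap / R)) (htT : 2 * Real.log (kap / R) ≤ T)
    (hl : ∀ x : V n, √(HY.sq x) ≤ 10 / 9 → l (R • x) = Lu n σ R kap Gs x)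
    (hW : ∀ z : VV n, √(HY.sq z.1) ≤ 10 / 9 → √(HY.sq z.2) ≤ 10 / 9 →
      W z = Φ (l (R • z.1) + l (R • z.2) +
          2 * (χ (r2 (gi s₁) (R • z)) * μ (l (mid (R • z))))) +
        st (l (R • z.1) + l (R • z.2) +
          2 * (χ (r2 (gi s₁) (R • z)) * μ (l (mid (R • z)))))
          (r2 (gi s₁) (R • z)) - Φ (2 * Real.log (kap / R))) :
    Wb σ R kap Gs T Nt M0 B c0 C0 D0 W
      (fun z => l (R • z.1) + l (R • z.2) +
          2 * (χ (r2 (gi s₁) (R • z)) * μ (l (mid (R • z)))))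
      (fun z => r2 (gi s₁) (R • z)) := by
  have hnn : ∀ z : VV n, 0 ≤ r2 (gi s₁) (R • z) := fun z => by
    have h1 := (abs_le.1 (r2_bd (R := R) hs h0 hε z)).1
    have h2 : 0 ≤ R ^ 2 * HY.sq (z.1 - z.2) := mul_nonneg (by positivity) (sq_nn _)
    linarith
  refine ⟨fun z h1 h2 => ?_, fun z h1 h2 => ?_, fun z h1 h2 => ?_, fun z h1 h2 h3 => ?_,
    fun z h1 h2 h3 h4 => ?_, fun z h1 h2 h3 h4 => ?_⟩
  · rw [hl _ h1, hl _ h2, add_sub_cancel_left, abs_mul, abs_mul]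
    have a1 := hχ (r2 (gi s₁) (R • z))
    have a2 := hμ (l (mid (R • z)))
    have a3 : |χ (r2 (gi s₁) (R • z))| ≤ 1 := by rw [abs_of_nonneg a1.1]; exact a1.2
    have a4 := mul_le_mul a3 a2 (abs_nonneg _) zero_le_one
    have a5 : |(2 : ℝ)| = 2 := abs_of_pos two_pos
    rw [a5]
    linarith
  · have a1 := (abs_le.1 (r2_bd (R := R) hs h0 hε z)).1
    have a2 : 0 ≤ R ^ 2 * HY.sq (z.1 - z.2) := mul_nonneg (by positivity) (sq_nn _)
    linarith
  · have a1 := (abs_le.1 (r2_bd (R := R) hs h0 hε z)).2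
    have a2 : 0 ≤ R ^ 2 * HY.sq (z.1 - z.2) := mul_nonneg (by positivity) (sq_nn _)
    linarith
  · rw [hW z h1 h2]
    have a1 := hst.lo (l (R • z.1) + l (R • z.2) +
          2 * (χ (r2 (gi s₁) (R • z)) * μ (l (mid (R • z))))) _ (hnn z) h3
    have a2 := hΦ.lo (l (R • z.1) + l (R • z.2) +
          2 * (χ (r2 (gi s₁) (R • z)) * μ (l (mid (R • z)))))
      (2 * Real.log (kap / R)) (by linarith) htT
    linarith
  · rw [hW z h1 h2]
    have a1 := hst.up (l (R • z.1) + l (R • z.2) +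
          2 * (χ (r2 (gi s₁) (R • z)) * μ (l (mid (R • z))))) _ (hnn z) h3
    have a2 := hΦ.up _ (2 * Real.log (kap / R)) (by linarith) h4
    linarith
  · rw [hW z h1 h2]
    have hr : √(r2 (gi s₁) (R • z)) ≤ 3 * R := by
      apply Real.sqrt_le_iff.2 ⟨by positivity, ?_⟩
      have a1 := (abs_le.1 (r2_bd (R := R) hs h0 hε z)).2
      have a2 : HY.sq (z.1 - z.2) ≤ (20 / 9) ^ 2 := by
        have b1 := cs z.1 (-z.2)
        have b2 := sq_neg' z.2
        have b3 := dot_neg' z.1 z.2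
        rw [b2, b3] at b1
        rw [sq_sub']
        have b4 : √(HY.sq z.1) * √(HY.sq z.2) ≤ 10 / 9 * (10 / 9) :=
          mul_le_mul h1 h2 (Real.sqrt_nonneg _) (by norm_num)
        have b5 := sq_le_of h1
        have b6 := sq_le_of h2
        linarith
      have a3 : R ^ 2 * HY.sq (z.1 - z.2) ≤ R ^ 2 * (20 / 9) ^ 2 :=
        mul_le_mul_of_nonneg_left a2 (by positivity)
      nlinarith [sq_nonneg R]
    have a1 := hst.fa _ _ (hnn z) hr h4
    have a2 := hΦ.st _ _ h3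
    linarith

end Vale.Agent.P088.R2.H281.EP
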