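import Vale.Agent.P088.R2.H281.EP.Sb
import Vale.Agent.P088.R2.H31.EP.Pack

/-!
# P088, stage 3, EST': bounds of the profile and of the slow exponential
-/

open Set Filter Topology
open scoped ContDiff Matrix

noncomputable section

namespace Vale.Agent.P088.R2.H281.EP

open Vale.Agent.P088.R2 Vale.Agent.P088.R2.H31.EP

/-- The parameters of the profile. -/
theorem pp_ok {e₁ : ℝ} (h : 0 < e₁) : H644.PP 2 Li e₁ rp dp where
  θ0 := by norm_num
  L0 := by norm_num [Li]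
  ε0 := h
  r0 := by norm_num [rp]
  δ0 := by norm_num [dp]
  le := by
    have h1 : Real.exp (1 / 10) ≤ Real.exp 1 := Real.exp_le_exp.2 (by norm_num)
    have h2 := Real.exp_one_lt_d9
    have h3 : Real.exp (1 / 10) ≤ 2 := by
      have h4 : Real.exp (1 / 10) ^ 10 = Real.exp 1 := by
        rw [← Real.exp_nat_mul]; norm_num
      by_contra hc
      push Not at hc
      have h5 : (2 : ℝ) ^ 10 ≤ Real.exp (1 / 10) ^ 10 := pow_le_pow_left₀ (by norm_num) hc.le 10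
      rw [h4] at h5
      norm_num at h5
      linarith
    unfold Li dp
    linarith

theorem prS_eq {e₁ s : ℝ} (h : 0 < e₁) (hs : s ≤ 1) : prS e₁ s = s * H644.St 2 (4 * s) := by
  have h1 := (pp_ok h).Ph_eq (s := s) (by norm_num [rp]; linarith)
  have h2 : prS e₁ s = H644.Fs (2 ^ 2) s := h1
  rw [h2]
  unfold H644.Fs
  norm_num

theorem prS_mono {e₁ : ℝ} (h : 0 < e₁) : MonotoneOn (prS e₁) (Ici 0) := by
  refine monotoneOn_of_deriv_nonneg (convex_Ici 0) ?_ ?_ ?_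
  · exact ((pp_ok h).contDiff_Ph).continuous.continuousOn
  · exact (((pp_ok h).contDiff_Ph).differentiable (by simp)).differentiableOn
  · intro s hs
    rw [interior_Ici] at hs
    have h1 : HasDerivAt (prS e₁) (H644.Ph1 2 Li e₁ rp dp s) s := ((pp_ok h).d2_Ph).d1 s
    rw [h1.deriv]
    exact ((pp_ok h).Ph1_pos (le_of_lt hs)).le

theorem St_le_one {s : ℝ} (h0 : 0 ≤ s) (h1 : s ≤ 1) : H644.St 2 (4 * s) ≤ 1 := by
  have h2 := H644.St_mono 2 (show (4 * s) ∈ Ici (0 : ℝ) from by simpa using h0)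
    (show (4 : ℝ) ∈ Ici (0 : ℝ) by norm_num) (by linarith)
  have h3 := H644.sq_mul_St_two_sq 2
  have h4 : (2 : ℝ) ^ 2 = 4 := by norm_num
  rw [h4] at h3
  have h5 : Real.cosh 2 ≤ 5 := by
    have h6 := Real.exp_one_lt_d9
    have h7 : Real.exp 2 = Real.exp 1 ^ 2 := by rw [← Real.exp_nat_mul]; norm_num
    have h8 : Real.exp (-2) ≤ 1 := Real.exp_le_one_iff.2 (by norm_num)
    have h9 : Real.exp 2 ≤ 7.5 := by
      rw [h7]
      have h0 := Real.exp_pos 1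
      nlinarith
    rw [Real.cosh_eq]
    linarith
  linarith

theorem prS_le {e₁ s : ℝ} (h : 0 < e₁) (h0 : 0 ≤ s) (h1 : s ≤ 1) : prS e₁ s ≤ s := by
  rw [prS_eq h h1]
  have := mul_le_mul_of_nonneg_left (St_le_one h0 h1) h0
  linarith

theorem prS_ge1 {e₁ s : ℝ} (h : 0 < e₁) (h0 : 0 ≤ s) (h1 : s ≤ 1) : s / 2 ≤ prS e₁ s := by
  rw [prS_eq h h1]
  have h2 := H644.half_le_St_two (s := 4 * s) (by linarith)
  have := mul_le_mul_of_nonneg_left h2 h0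
  linarith

theorem prS_ge {n : ℕ} (hn : 0 < n) {e₁ s : ℝ} (h : 0 < e₁) (h0 : 0 ≤ s) (h1 : s ≤ 2 * n) :
    1 / (4 * n) * s ≤ prS e₁ s := by
  have hn1 : (1 : ℝ) ≤ n := by exact_mod_cast hn
  have hn0 : (0 : ℝ) < 4 * n := by linarith
  rcases le_total s 1 with h2 | h2
  · refine le_trans ?_ (prS_ge1 h h0 h2)
    have : 1 / (4 * (n : ℝ)) ≤ 1 / 2 := by
      rw [div_le_div_iff₀ hn0 (by norm_num)]
      linarith
    have := mul_le_mul_of_nonneg_right this h0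
    linarith
  · have h3 := prS_mono h (show (1 : ℝ) ∈ Ici (0 : ℝ) by norm_num) (show s ∈ Ici (0 : ℝ) from h0) h2
    have h4 := prS_ge1 h zero_le_one (le_refl (1 : ℝ))
    have h5 : 1 / (4 * n) * s ≤ 1 / 2 := by
      rw [div_mul_eq_mul_div, one_mul, div_le_div_iff₀ hn0 (by norm_num)]
      linarith
    linarith

/-- The growth of the profile. -/
theorem prS_exp {e₁ : ℝ} (h : 0 < e₁) :
    ∃ C : ℝ, 0 ≤ C ∧ ∀ s, 0 < s → Real.log (prS e₁ s) ≤ 4 / 5 * √s + C := by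
  obtain ⟨R₁, hR, hR1⟩ := (pp_ok h).exists_R
  have hR0 : 0 < R₁ := (pp_ok h).r0.trans hR
  have hpos : ∀ s, 0 < s → 0 < prS e₁ s := fun s hs => (pp_ok h).S_pos hs
  refine ⟨|Real.log (prS e₁ (R₁ ^ 2))|, abs_nonneg _, fun s hs => ?_⟩
  have hA := le_abs_self (Real.log (prS e₁ (R₁ ^ 2)))
  rcases le_total (√s) R₁ with h1 | h1
  · have h2 : s ≤ R₁ ^ 2 := (Real.sqrt_le_left hR0.le).1 h1
    have h3 := prS_mono h (show s ∈ Ici (0 : ℝ) from hs.le)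
      (show R₁ ^ 2 ∈ Ici (0 : ℝ) from mem_Ici.2 (sq_nonneg R₁)) h2
    have h4 := Real.log_le_log (hpos s hs) h3
    have := Real.sqrt_nonneg s
    linarith
  · have h2 := (pp_ok h).S_far hR0 (fun r hr => (hR1 r hr).1) h1
    rw [Real.sq_sqrt hs.le] at h2
    have h3 : prS e₁ s = prS e₁ (R₁ ^ 2) * Real.exp (4 / 5 * (√s - R₁)) := h2
    rw [h3, Real.log_mul (hpos _ (by positivity)).ne' (Real.exp_pos _).ne', Real.log_exp]
    linarith

/-- The slow exponential for `f ≤ 0`. -/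
theorem slow_le {ε N c' τ r₁ : ℝ} {Cb : ℕ → ℕ → ℝ} {u : H768.W.E2 → ℝ}
    {D : ℕ → ℕ → H768.W.E2 → ℝ} (h : H768.W.IsSlow ε N c' τ r₁ Cb u D) (hε : ε ≤ 1)
    (hr₁ : 1 ≤ r₁) {f r : ℝ} (hf : f ≤ 0) (hr : 0 < r) : D 0 0 (f, r) ≤ 16 * (1 + √r) := by
  have hz : 0 < (f, r).2 := hr
  obtain ⟨k, k1, k2, k3⟩ := h.u_form (f, r) hz
  have hm0 : 0 < min 1 √(r₁ / r) := lt_min one_pos (Real.sqrt_pos.2 (by positivity))
  have hk0 : 0 ≤ k := by
    have : 0 ≤ 1 / 2 * min 1 √(r₁ / (f, r).2) := by positivity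
    linarith
  have hu : u (f, r) ≤ 0 := by
    rw [k3]
    exact mul_nonpos_of_nonneg_of_nonpos hk0 hf
  have hG := h.G_pos _ hz
  have hg := h.g_pos _ hz
  have hG2 : D 1 0 (f, r) ≤ 2 := by
    have h1 := (abs_le.1 (h.G_u _ hz)).2
    have h2 : Real.exp (u (f, r)) ≤ 1 := Real.exp_le_one_iff.2 hu
    have h3 := Real.exp_pos (u (f, r))
    nlinarith
  have h4 := (abs_le.1 (h.psi _ hz)).2
  have h5 : D 2 0 (f, r) * D 0 0 (f, r) ≤ 2 * D 1 0 (f, r) ^ 2 := by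
    have := sq_nonneg (D 1 0 (f, r))
    nlinarith
  have h6 : 1 / 4 * min 1 √(r₁ / r) * D 1 0 (f, r) ≤ D 2 0 (f, r) := h.kap_ge _ hz
  have hP := h.psi_pos _ hz
  have h7 : 1 / 4 * min 1 √(r₁ / r) * D 1 0 (f, r) * D 0 0 (f, r) ≤ 2 * D 1 0 (f, r) ^ 2 :=
    (mul_le_mul_of_nonneg_right h6 hP.le).trans h5
  have h8 : min 1 √(r₁ / r) * D 0 0 (f, r) ≤ 8 * D 1 0 (f, r) := by
    have h9 : (min 1 √(r₁ / r) * D 0 0 (f, r)) * D 1 0 (f, r) ≤
        (8 * D 1 0 (f, r)) * D 1 0 (f, r) := by nlinarith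
    exact le_of_mul_le_mul_right h9 hG
  have h10 : min 1 √(r₁ / r) * D 0 0 (f, r) ≤ 16 := by linarith
  -- `1 ≤ min 1 √(r₁ / r) (1 + √r)`
  have hsr : 0 ≤ √r := Real.sqrt_nonneg r
  have h11 : 1 ≤ min 1 √(r₁ / r) * (1 + √r) := by
    rcases min_cases 1 √(r₁ / r) with ⟨h12, _⟩ | ⟨h12, _⟩
    · rw [h12]; linarith
    · rw [h12, Real.sqrt_div (by linarith)]
      have h13 : 0 < √r := Real.sqrt_pos.2 hr
      have h14 : 1 ≤ √r₁ := Real.one_le_sqrt.2 hr₁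
      rw [div_mul_eq_mul_div, le_div_iff₀ h13]
      nlinarith
  calc D 0 0 (f, r) = 1 * D 0 0 (f, r) := (one_mul _).symm
    _ ≤ (min 1 √(r₁ / r) * (1 + √r)) * D 0 0 (f, r) := mul_le_mul_of_nonneg_right h11 hP.le
    _ = (min 1 √(r₁ / r) * D 0 0 (f, r)) * (1 + √r) := by ring
    _ ≤ 16 * (1 + √r) := mul_le_mul_of_nonneg_right h10 (by linarith)

end Vale.Agent.P088.R2.H281.EP
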