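import Vale.Agent.P088.R2.H455.E.Top
import Vale.Agent.P088.R2.H509.EP.Lit2

/-!
# P088, stage 3: row BAS (smoothness, symmetry, ellipticity)
-/

open Set Filter
open scoped ContDiff Topology Matrix

noncomputable section

namespace Vale.Agent.P088.R2.H281.EP

open Vale.Agent.P088.LR Vale.Agent.P088.HY Vale.Agent.P088.R2.H31.EP
open Vale.Agent.P088.R2.H551.E (El)
open Vale.Agent.P088.R2.H455.E (Bas RowBas)
open Vale.Agent.P088.R2.H222 (dl)

variable {n : ℕ} {q : Cst} {d : Pk n}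

/-- The second tensor is close to `1`. -/
theorem s₂_close (h : PkOk q d) (x : V n) (i j : Fin n) : |d.s₂ x i j - dl i j| ≤ q.ε := by
  have := h.rg.cl₂ i j 0 (by norm_num) x
  rwa [norm_iteratedFDeriv_zero, pow_zero, mul_one, Real.norm_eq_abs] at this

/-- A tensor close to `1` is elliptic. -/
theorem el_of {s : MF n} {ε : ℝ} (h : ∀ x i j, |s x i j - dl i j| ≤ ε) (hε : n * ε ≤ 1 / 2) :
    El s := fun x ξ => by
  have h1 := bf_close (h x) ξ
  have e1 : H464.Cu.bf (s x) ξ ξ = ∑ i, ∑ j, s x i j * ξ i * ξ j := rfl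
  rw [e1] at h1
  have h2 : 0 ≤ ∑ i, ξ i ^ 2 := Finset.sum_nonneg fun _ _ => sq_nonneg _
  have h3 := mul_le_mul_of_nonneg_right hε h2
  have h4 := abs_le.1 h1
  constructor <;> linarith

/-- **Row BAS.** -/
theorem rowBas (n : ℕ) : RowBas n := by
  refine ((EvC.litSm n).and ((EvC.ε_le (fun _ => 1 / (2 * (n + 1))) fun _ => rfl).and
    EvC.pos)).mono ?_
  rintro q ⟨hs, hε, p⟩ d h
  have hs := hs d h
  have hn : (0 : ℝ) ≤ n := Nat.cast_nonneg n
  have h1 := hε (by positivity)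
  have h2 : n * q.ε ≤ 1 / 2 := by
    rw [le_div_iff₀ (by positivity)] at h1
    have h0 : 0 < q.ε := p.2.2.2.2.1
    nlinarith
  exact
    { s₁ := h.rg.sm₁
      s₂ := h.rg.sm₂
      y₁ := h.rg.sy₁
      y₂ := h.rg.sy₂
      e₁ := el_of h.s₁_close h2
      e₂ := el_of (s₂_close h) h2
      W := WT_smooth h.ok h.Θs h.ret.sm h.l_sm hs.g
      ch := hs.ch }

end Vale.Agent.P088.R2.H281.EP
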