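import Vale.Agent.P088.R2.H404.Spec4

/-!
# P088, stage 3: bounds of the level function `gy`
-/

open Set Filter Topology

noncomputable section

namespace Vale.Agent.P088.R2.H281.EP

open Vale.Agent.P088.LR Vale.Agent.P088.HY Vale.Agent.P088.HY.T3 Vale.Agent.P088.HY.T4

variable {n : ℕ}

/-- The coordinate along `e₀`. -/
def x0 (x : V n) : ℝ := ∑ i, x i * e0 n i

theorem sq_nn (x : V n) : 0 ≤ HY.sq x := Finset.sum_nonneg fun _ _ => sq_nonneg _

theorem sq_sub' (x y : V n) : HY.sq (x - y) = HY.sq x + HY.sq y - 2 * ∑ i, x i * y i := by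
  simp only [HY.sq, Pi.sub_apply]
  rw [Finset.mul_sum, ← Finset.sum_add_distrib, ← Finset.sum_sub_distrib]
  exact Finset.sum_congr rfl fun i _ => by ring

theorem sq_e0 (hn : 0 < n) : HY.sq (e0 n) = 1 := by
  simp only [HY.sq, e0]
  rw [Finset.sum_eq_single (⟨0, hn⟩ : Fin n)]
  · simp
  · intro i _ hi
    have : i.val ≠ 0 := fun h => hi (Fin.ext h)
    simp [this]
  · intro h
    exact absurd (Finset.mem_univ _) h

theorem gy_eq (hn : 0 < n) (σ : ℝ) (y : V n) :
    gy n σ y = x0 y - 1 + σ / 2 * (HY.sq y - 2 * x0 y + 1) := by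
  have h := sq_sub' y (e0 n)
  rw [sq_e0 hn] at h
  show (∑ i, y i * e0 n i) - 1 + σ / 2 * HY.sq (y - e0 n) = _
  rw [h]
  simp only [x0]
  ring

/-- Cauchy-Schwarz. -/
theorem cs (x y : V n) : ∑ i, x i * y i ≤ √(HY.sq x) * √(HY.sq y) := by
  have h := Finset.sum_mul_sq_le_sq_mul_sq Finset.univ x y
  have h1 : (∑ i, x i * y i) ^ 2 ≤ HY.sq x * HY.sq y := h
  rw [← Real.sqrt_mul (sq_nn x)]
  exact Real.le_sqrt_of_sq_le h1

/-- The linear function and the distance. -/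
theorem far_lin (hn : 0 < n) {x y : V n} {s t τ : ℝ} (hx : √(HY.sq x) ≤ s) (hy : √(HY.sq y) ≤ t)
    (h0 : 0 ≤ τ) (h1 : τ < 1) (hst : t * (1 + τ) ≤ s * (1 - τ)) :
    x0 x + x0 y + τ * √(HY.sq (x - y)) ≤ (1 + τ) * s + (1 - τ) * t := by
  have hs : 0 ≤ s := (Real.sqrt_nonneg _).trans hx
  have ht : 0 ≤ t := (Real.sqrt_nonneg _).trans hy
  rcases (Real.sqrt_nonneg (HY.sq (x - y))).eq_or_lt with hD | hD
  · have h2 : HY.sq (x - y) = 0 := by
      have := Real.sq_sqrt (sq_nn (x - y))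
      rw [← hD] at this
      linarith
    rw [← hD]
    have a1 := cs x (e0 n)
    have a2 := cs y (e0 n)
    rw [sq_e0 hn, Real.sqrt_one, mul_one] at a1 a2
    have b1 : x0 x ≤ s := a1.trans hx
    have b2 : x0 y ≤ t := a2.trans hy
    have b3 : t ≤ s := by nlinarith
    nlinarith [mul_le_mul_of_nonneg_left b3 h0]
  · obtain ⟨D, hDe⟩ : ∃ D, D = √(HY.sq (x - y)) := ⟨_, rfl⟩
    rw [← hDe] at hD ⊢
    have hD2 : D ^ 2 = HY.sq (x - y) := by rw [hDe, Real.sq_sqrt (sq_nn _)]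
    set w : V n := x - y with hw
    set c : ℝ := x0 w / D with hc
    have hcD : x0 w = c * D := by rw [hc]; field_simp
    have hc1 : c ≤ 1 := by
      have a1 := cs w (e0 n)
      rw [sq_e0 hn, Real.sqrt_one, mul_one, ← hDe] at a1
      rw [hc, div_le_one hD]
      exact a1
    have hc2 : -1 ≤ c := by
      have a1 := cs (-w) (e0 n)
      have e1 : HY.sq (-w) = HY.sq w := by simp [HY.sq]
      rw [sq_e0 hn, Real.sqrt_one, mul_one, e1, ← hDe] at a1
      have e2 : ∑ i, (-w) i * e0 n i = -x0 w := by simp [x0]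
      rw [e2, hcD] at a1
      by_contra hcon
      push Not at hcon
      nlinarith
    -- the two vectors `e₀ ± ω`, `ω = τ w / D`
    have key : ∀ (z : V n) (ε : ℝ), ε ^ 2 = 1 → ∑ i, z i * (e0 n i + ε * (τ / D) * w i) ≤
        √(HY.sq z) * √(1 + τ ^ 2 + ε * (2 * τ * c)) := by
      intro z ε hε
      have a1 := cs z (fun i => e0 n i + ε * (τ / D) * w i)
      have e1 : HY.sq (fun i => e0 n i + ε * (τ / D) * w i) = 1 + τ ^ 2 + ε * (2 * τ * c) := by
        have : HY.sq (fun i => e0 n i + ε * (τ / D) * w i) =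
            HY.sq (e0 n) + ε ^ 2 * (τ / D) ^ 2 * HY.sq w + 2 * (ε * (τ / D)) * x0 w := by
          simp only [HY.sq, x0]
          rw [Finset.mul_sum, Finset.mul_sum, ← Finset.sum_add_distrib, ← Finset.sum_add_distrib]
          exact Finset.sum_congr rfl fun i _ => by ring
        rw [this, sq_e0 hn, hε, ← hD2, hcD]
        field_simp
      rw [e1] at a1
      exact a1
    have k1 := key x 1 (by norm_num)
    have k2 := key y (-1) (by norm_num)
    have e3 : x0 x + x0 y + τ * D = ∑ i, x i * (e0 n i + 1 * (τ / D) * w i) +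
        ∑ i, y i * (e0 n i + -1 * (τ / D) * w i) := by
      have e4 : D ^ 2 = ∑ i, w i * (x i - y i) := by
        rw [hD2]
        simp only [HY.sq]
        exact Finset.sum_congr rfl fun i _ => by rw [hw]; simp; ring
      have e5 : τ * D = (τ / D) * D ^ 2 := by field_simp
      rw [e5, e4]
      simp only [x0]
      rw [Finset.mul_sum, ← Finset.sum_add_distrib, ← Finset.sum_add_distrib,
        ← Finset.sum_add_distrib]
      exact Finset.sum_congr rfl fun i _ => by ring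
    have s1 : √(1 + τ ^ 2 + 1 * (2 * τ * c)) ≤ (1 + τ) - (1 - c) * τ / (1 + τ) := by
      have hp : 0 < 1 + τ := by linarith
      have hq : 0 ≤ (1 + τ) - (1 - c) * τ / (1 + τ) := by
        have : (1 - c) * τ / (1 + τ) ≤ 1 + τ := by
          rw [div_le_iff₀ hp]
          nlinarith
        linarith
      apply Real.sqrt_le_iff.2 ⟨hq, ?_⟩
      have e6 : ((1 + τ) - (1 - c) * τ / (1 + τ)) ^ 2 =
          1 + τ ^ 2 + 1 * (2 * τ * c) + ((1 - c) * τ / (1 + τ)) ^ 2 := by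
        field_simp
        ring
      rw [e6]
      linarith [sq_nonneg ((1 - c) * τ / (1 + τ))]
    have s2 : √(1 + τ ^ 2 + -1 * (2 * τ * c)) ≤ (1 - τ) + (1 - c) * τ / (1 - τ) := by
      have hp : 0 < 1 - τ := by linarith
      have hq : 0 ≤ (1 - τ) + (1 - c) * τ / (1 - τ) := by
        have : 0 ≤ (1 - c) * τ / (1 - τ) := by
          apply div_nonneg _ hp.le
          exact mul_nonneg (by linarith) h0
        linarith
      apply Real.sqrt_le_iff.2 ⟨hq, ?_⟩
      have e6 : ((1 - τ) + (1 - c) * τ / (1 - τ)) ^ 2 =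
          1 + τ ^ 2 + -1 * (2 * τ * c) + ((1 - c) * τ / (1 - τ)) ^ 2 := by
        field_simp
        ring
      rw [e6]
      linarith [sq_nonneg ((1 - c) * τ / (1 - τ))]
    have hA : 0 ≤ (1 + τ) - (1 - c) * τ / (1 + τ) := (Real.sqrt_nonneg _).trans s1
    have hB : 0 ≤ (1 - τ) + (1 - c) * τ / (1 - τ) := (Real.sqrt_nonneg _).trans s2
    have t1 : √(HY.sq x) * √(1 + τ ^ 2 + 1 * (2 * τ * c)) ≤
        s * ((1 + τ) - (1 - c) * τ / (1 + τ)) :=
      mul_le_mul hx s1 (Real.sqrt_nonneg _) hs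
    have t2 : √(HY.sq y) * √(1 + τ ^ 2 + -1 * (2 * τ * c)) ≤
        t * ((1 - τ) + (1 - c) * τ / (1 - τ)) :=
      mul_le_mul hy s2 (Real.sqrt_nonneg _) ht
    have t3 : t * ((1 - c) * τ / (1 - τ)) ≤ s * ((1 - c) * τ / (1 + τ)) := by
      have hp : 0 < 1 - τ := by linarith
      have hp' : 0 < 1 + τ := by linarith
      have e7 : t * ((1 - c) * τ / (1 - τ)) = ((1 - c) * τ) * (t / (1 - τ)) := by ring
      have e8 : s * ((1 - c) * τ / (1 + τ)) = ((1 - c) * τ) * (s / (1 + τ)) := by ring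
      rw [e7, e8]
      apply mul_le_mul_of_nonneg_left _ (mul_nonneg (by linarith) h0)
      rw [div_le_div_iff₀ hp hp']
      exact hst
    rw [e3]
    nlinarith

/-- The level function is Lipschitz on bounded sets. -/
theorem gy_lip (hn : 0 < n) {σ : ℝ} (h0 : 0 ≤ σ) (h1 : σ ≤ 1 / 10) {x y : V n}
    (hx : HY.sq x ≤ 4) (hy : HY.sq y ≤ 4) :
    |gy n σ x - gy n σ y| ≤ 2 * n * ‖x - y‖ := by
  have hc : ∀ (z : V n), HY.sq z ≤ 4 → ∀ i, |z i| ≤ 2 := by
    intro z hz i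
    have a1 : z i ^ 2 ≤ HY.sq z :=
      Finset.single_le_sum (f := fun i => z i ^ 2) (fun _ _ => sq_nonneg _) (Finset.mem_univ i)
    exact abs_le_of_sq_le_sq (by nlinarith) (by norm_num)
  have e : gy n σ x - gy n σ y =
      ∑ i, (x i - y i) * ((1 - σ) * e0 n i + σ / 2 * (x i + y i)) := by
    rw [gy_eq hn, gy_eq hn]
    simp only [HY.sq, x0]
    have e1 : ∑ i, (x i - y i) * ((1 - σ) * e0 n i + σ / 2 * (x i + y i)) =
        (1 - σ) * (∑ i, x i * e0 n i) - (1 - σ) * (∑ i, y i * e0 n i) +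
        (σ / 2 * (∑ i, x i ^ 2) - σ / 2 * ∑ i, y i ^ 2) := by
      simp only [Finset.mul_sum]
      rw [← Finset.sum_sub_distrib, ← Finset.sum_sub_distrib, ← Finset.sum_add_distrib]
      exact Finset.sum_congr rfl fun i _ => by ring
    rw [e1]
    ring
  rw [e]
  refine (Finset.abs_sum_le_sum_abs _ _).trans ?_
  have hb : ∀ i ∈ Finset.univ, |(x i - y i) * ((1 - σ) * e0 n i + σ / 2 * (x i + y i))| ≤
      ‖x - y‖ * 2 := by
    intro i _
    rw [abs_mul]
    have a1 : |x i - y i| ≤ ‖x - y‖ := by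
      have := norm_le_pi_norm (x - y) i
      simpa using this
    have a2 : |(1 - σ) * e0 n i + σ / 2 * (x i + y i)| ≤ 2 := by
      have b1 := abs_le.1 (hc x hx i)
      have b2 := abs_le.1 (hc y hy i)
      have b3 : 0 ≤ e0 n i ∧ e0 n i ≤ 1 := by
        unfold e0
        split_ifs <;> norm_num
      rw [abs_le]
      constructor <;> nlinarith
    exact mul_le_mul a1 a2 (abs_nonneg _) (norm_nonneg _)
  refine (Finset.sum_le_sum hb).trans ?_
  rw [Finset.sum_const, Finset.card_univ, Fintype.card_fin, nsmul_eq_mul]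
  linarith

/-- The levels in the far row. -/
theorem gy_far (hn : 0 < n) {σ s t τ : ℝ} (h0 : 0 ≤ σ) (h1 : σ ≤ 1 / 10) {x y : V n}
    (hx : √(HY.sq x) ≤ s) (hy : √(HY.sq y) ≤ t) (hτ : 0 ≤ τ) (hτ1 : τ < 1)
    (hst : t * (1 + τ) ≤ s * (1 - τ)) :
    gy n σ x + gy n σ y + τ * √(HY.sq (x - y)) ≤
      (1 - σ) * ((1 + τ) * s + (1 - τ) * t) + σ * τ * (s + t) - 2 + σ +
        σ / 2 * (s ^ 2 + t ^ 2) := by
  have hs : 0 ≤ s := (Real.sqrt_nonneg _).trans hx
  have ht : 0 ≤ t := (Real.sqrt_nonneg _).trans hy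
  have a1 := far_lin hn hx hy hτ hτ1 hst
  have a2 : HY.sq x ≤ s ^ 2 := by
    have := Real.sq_sqrt (sq_nn x)
    nlinarith [Real.sqrt_nonneg (HY.sq x)]
  have a3 : HY.sq y ≤ t ^ 2 := by
    have := Real.sq_sqrt (sq_nn y)
    nlinarith [Real.sqrt_nonneg (HY.sq y)]
  have a4 : √(HY.sq (x - y)) ≤ s + t := by
    apply Real.sqrt_le_iff.2 ⟨by linarith, ?_⟩
    rw [sq_sub']
    have b1 := cs x (-y)
    have e1 : HY.sq (-y) = HY.sq y := by simp [HY.sq]
    have e2 : ∑ i, x i * (-y) i = -∑ i, x i * y i := by simp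
    rw [e1, e2] at b1
    have b2 : √(HY.sq x) * √(HY.sq y) ≤ s * t := mul_le_mul hx hy (Real.sqrt_nonneg _) hs
    nlinarith
  rw [gy_eq hn, gy_eq hn]
  have a5 : (1 - σ) * (x0 x + x0 y + τ * √(HY.sq (x - y))) ≤
      (1 - σ) * ((1 + τ) * s + (1 - τ) * t) := mul_le_mul_of_nonneg_left a1 (by linarith)
  have a6 : σ * τ * √(HY.sq (x - y)) ≤ σ * τ * (s + t) :=
    mul_le_mul_of_nonneg_left a4 (mul_nonneg h0 hτ)
  have a7 : σ / 2 * (HY.sq x + HY.sq y) ≤ σ / 2 * (s ^ 2 + t ^ 2) :=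
    mul_le_mul_of_nonneg_left (by linarith) (by linarith)
  linarith

end Vale.Agent.P088.R2.H281.EP
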