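import Vale.Agent.P088.R2.H281.EP.W123
import Vale.Agent.P088.R2.H455.E.Rows
import Vale.Agent.P088.R2.H871.INF.RetP
import Vale.Agent.P088.R2.H850.E.Wt
import Vale.Agent.P088.R2.H475.INF.LevD
import Vale.Agent.P088.R2.H222.Inv
import Vale.Agent.P088.R2.H31.EP.Thx

/-!
# P088, stage 3, EST': row WtA

The weight of a package in the unit chart: quadratic growth and W1, W2, W3.
-/

open Set Filter Topology
open scoped ContDiff Matrix

noncomputable section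

namespace Vale.Agent.P088.R2.H281.EP

open Vale.Agent.P088.LR Vale.Agent.P088.HY Vale.Agent.P088.HY.T3 Vale.Agent.P088.HY.T4
open Vale.Agent.P088.R2 Vale.Agent.P088.R2.H31.EP
open Vale.Agent.P088.R2.H269 (ky Zi Wt)
open Vale.Agent.P088.R2.H455.E (WUn WtA NoR RowWa)

variable {n : ℕ}

theorem gi_smooth {q : Cst} {d : Pk n} (h : PkOk q d) (hε : n * q.ε ≤ 1 / 2) (i j : Fin n) :
    ContDiff ℝ ∞ (fun x => gi d.s₁ x i j) := by
  rw [← contDiffOn_univ]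
  refine H222.inv_smooth (fun a b => (h.rg.sm₁ a b).contDiffOn) (fun x _ => ?_) i j
  refine H222.det_ne (ε := q.ε) (fun a b => ?_) hε
  have h1 := h.rg.cl₁ a b 0 (Nat.zero_le _) x
  rw [pow_zero, mul_one, norm_iteratedFDeriv_zero, Real.norm_eq_abs] at h1
  exact h1

/-- The weight of a package has quadratic growth. -/
theorem wt_pk (hn : 0 < n) {q : Cst} {d : Pk n} (h : PkOk q d)
    (hr : H871.INF.RetF n q.σ q.R d.P) (hε : n * q.ε ≤ 1 / 2) (hσ : 0 < q.σ)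
    (hσ1 : q.σ ≤ 1 / 5000) (hR : 0 < q.R) : ∃ B, 0 ≤ B ∧ Wt B (WUn q d) := by
  refine H850.E.wt_WT h.ok (gi_smooth h hε) h.lev.sm ?_ h.ret.sm ?_ h.Θs ?_ q.R
    (d.Φ (2 * Real.log (d.kap / q.R)))
  · obtain ⟨C₁, p1, h1⟩ := H475.levG_bound1 (n := n) hn hσ hσ1
    obtain ⟨C₂, p2, h2⟩ := H475.levG_bound (n := n) hn hσ hσ1 0
    have hRi : 0 < q.R⁻¹ := inv_pos.2 hR
    refine ⟨C₁ * (1 + q.R⁻¹) + C₂ * q.R⁻¹, fun x => ?_⟩
    have hx := norm_nonneg x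
    rw [h.lev.lit]
    constructor
    · rw [← norm_iteratedFDeriv_fderiv (n := 0), norm_iteratedFDeriv_zero]
      refine (h1 q.R d.kap d.Gs hR x).trans ?_
      rw [div_eq_mul_inv]
      have e : C₁ * (1 + ‖x‖ * q.R⁻¹) ≤ C₁ * ((1 + q.R⁻¹) * (1 + ‖x‖)) := by
        refine mul_le_mul_of_nonneg_left ?_ p1.le
        nlinarith
      have e2 : 0 ≤ C₂ * q.R⁻¹ * (1 + ‖x‖) := by positivity
      linarith
    · refine (h2 q.R d.kap d.Gs hR x).trans ?_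
      rw [zero_add, pow_one]
      have e1 : (1 : ℝ) ≤ (1 + ‖x‖) ^ 2 := by nlinarith
      have e2 : 0 ≤ C₁ * (1 + q.R⁻¹) * (1 + ‖x‖) ^ 2 := by positivity
      have e3 : C₂ * q.R⁻¹ * 1 ≤ C₂ * q.R⁻¹ * (1 + ‖x‖) ^ 2 :=
        mul_le_mul_of_nonneg_left e1 (by positivity)
      linarith
  · obtain ⟨C, hC⟩ := hr.bdd
    refine ⟨max C (max (H871.INF.Cr n 1 * q.R * q.R⁻¹ ^ 1) (H871.INF.Cr n 2 * q.R * q.R⁻¹ ^ 2)),
      fun x => ⟨(hC x).trans (le_max_left _ _), ?_, ?_⟩⟩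
    · exact (hr.bd 1 le_rfl x).trans ((le_max_left _ _).trans (le_max_right _ _))
    · exact (hr.bd 2 (by norm_num) x).trans ((le_max_right _ _).trans (le_max_right _ _))
  · have hA : 0 < q.A₄ + q.R ^ 4 := add_pos (Real.exp_pos _) (by positivity)
    refine ⟨max (q.A₄ + q.R ^ 4) (thC 1 * (q.L₄ ^ 1 * q.A₄ + (√q.R)⁻¹ ^ 1 * q.R ^ 4)),
      fun x => ⟨?_, ?_, ?_⟩⟩
    · rw [abs_of_nonneg (h.Θd0 hR _)]
      exact (h.Θd1 hR _).trans (le_max_left _ _)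
    · have h1 := h.Θbd hR 1 (d.l x)
      rw [iteratedDeriv_succ, iteratedDeriv_one] at h1
      exact h1.trans (le_max_right _ _)
    · have h1 := h.Θnn (d.l x)
      have h2 : 0 ≤ max (q.A₄ + q.R ^ 4) (thC 1 * (q.L₄ ^ 1 * q.A₄ + (√q.R)⁻¹ ^ 1 * q.R ^ 4)) :=
        hA.le.trans (le_max_left _ _)
      linarith

/-- **Row WtA.** -/
theorem rowWa (hn : 0 < n) : RowWa n := by
  refine ⟨cW n, CW n, fun q R => rfl, fun q R => rfl, ?_⟩
  have h1 : EvC fun q => q.σ ≤ 1 / 5000 := EvC.at_σ (fun _ t => t ≤ 1 / 5000) fun _ =>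
    sml_le (by norm_num)
  refine (((rowW hn).and (EvC.pos.and (thr n))).and h1).mono fun q hq => ?_
  obtain ⟨⟨⟨a1, a2, a3⟩, hp, ht⟩, a5⟩ := hq
  obtain ⟨-, ⟨-, hσ0, -⟩, -, -, -, -, -, hR1⟩ := hp
  have hR0 : 0 < q.R := by linarith
  refine ⟨a1, by linarith, fun d h => ?_⟩
  have h3 := a3 d h (cW n q) (CW n q) le_rfl le_rfl
  have hr : H871.INF.RetF n q.σ q.R d.P := by
    rw [h.ret.lit]
    exact H871.INF.retF hn hσ0 ht.σ1 hR0
  exact ⟨wt_pk hn h hr (ht.ε.trans (by norm_num)) hσ0 a5 hR0, h3.W1, h3.W2, h3.W3⟩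

end Vale.Agent.P088.R2.H281.EP
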