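import Vale.Agent.P088.R2.H281.EP.Prs
import Vale.Agent.P088.R2.H31.EP.PackL

/-!
# P088, stage 3, EST': the fields W1, W2, W3 of `EBg` for the package

`wb_pk`: the bounds `Wb` of the weight of a package. `rowW`: W1, W2, W3, for all suitable constants.
-/

open Set Filter Topology
open scoped ContDiff Matrix

noncomputable section

namespace Vale.Agent.P088.R2.H281.EP

open Vale.Agent.P088.LR Vale.Agent.P088.HY Vale.Agent.P088.HY.T3 Vale.Agent.P088.HY.T4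
open Vale.Agent.P088.R2 Vale.Agent.P088.R2.H31.EP
open Vale.Agent.P088.R2.H269 (ky Zi)
open Vale.Agent.P088.R2.H464.Cu (mid dif rq bf)

variable {n : ℕ}

/-- The slope of a package. -/
theorem gr_pk {q : Cst} {d : Pk n} (h : PkOk q d) (hM : 0 < q.M₀) {Nt B : ℝ} (hB : 0 ≤ B)
    (hdc : ∀ u, 0 ≤ Nt - deriv d.Φ₁ u ∧ Nt - deriv d.Φ₁ u ≤ B * Real.exp (-u)) :
    Gr2 q.M₀ Nt (B + q.ph.CT * q.M₀) (d.uth q) d.Φ := by
  have hg : Gr q.M₀ Nt B d.Φ₁ :=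
    ⟨h.ph.isΦ.sm.differentiable (by simp), hM, hB, h.ph.isΦ.n1, fun u => by linarith [(hdc u).1],
      fun u => (hdc u).2⟩
  have hC : 0 ≤ q.ph.CT * q.M₀ := by
    have h1 := h.top.c0 (d.uth q) le_rfl
    have h2 := h.top.l0 (d.uth q)
    rw [sub_self, Real.exp_zero, mul_one] at h1
    linarith
  refine hg.gr2' (h.top.sm.differentiable (by simp)) (fun u => (h.ph.isΦ.n1 u).trans (h.top.l1 u))
    h.top.l0 fun u hu => ?_
  have h1 := h.top.c0 u hu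
  have h2 : Real.exp (u - d.uth q) ≤ 1 := Real.exp_le_one_iff.2 (by linarith)
  have := mul_le_mul_of_nonneg_left h2 hC
  linarith

/-- The stiff part of a package. -/
theorem sb_pk (hn : 0 < n) {q : Cst} {d : Pk n} (h : PkOk q d) (he : 0 < q.e₁) (hes : q.es ≤ 1)
    (hr : 2 * n < (q.r₁ * Real.exp (-1)) ^ 2) (hr1 : 1 ≤ q.r₁) (hR : 1 ≤ q.R) {C : ℝ}
    (hC : ∀ s, 0 < s → Real.log (prS q.e₁ s) ≤ 4 / 5 * √s + C) (hRC : 20 * C ≤ q.R) :
    Sb n q.R (1 / (4 * n)) 1 (16 * (1 + √(3 * q.R))) (st (d.F q)) where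
  lo u s h0 h1 := by
    rw [st_in' h.ok (lt_of_le_of_lt h1 hr)]
    have h2 : 1 / (4 * n) * s ≤ (d.F q).S s := prS_ge hn he h0 h1
    have := mul_le_mul_of_nonneg_left h2 (Real.exp_pos u).le
    linarith
  up u s h0 h1 := by
    have hn1 : (1 : ℝ) ≤ n := by exact_mod_cast hn
    rw [st_in' h.ok (lt_of_le_of_lt (show s ≤ 2 * n by linarith) hr)]
    have h2 : (d.F q).S s ≤ s := prS_le he h0 h1
    have := mul_le_mul_of_nonneg_left h2 (Real.exp_pos u).le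
    linarith
  fa u s h0 h1 h2 := by
    have hb : 0 ≤ 16 * (1 + √(3 * q.R)) := by positivity
    rcases h0.eq_or_lt with h3 | h3
    · rw [← h3, st_in' h.ok (by have : 0 < q.r₁ * Real.exp (-1) := by positivity
                                positivity), h.ok.S0, mul_zero]
      exact hb
    · rw [st_out h.ok h3]
      have h4 : u + Real.log ((d.F q).S s) ≤ 0 := by
        have h5 : Real.log ((d.F q).S s) ≤ 4 / 5 * √s + C := hC s h3
        linarith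
      have h6 := slow_le h.sl hes hr1 h4 (Real.sqrt_pos.2 h3)
      refine h6.trans ?_
      have h7 : √√s ≤ √(3 * q.R) := Real.sqrt_le_sqrt h1
      linarith

/-- The level on `|x| ≤ 10 / 9`. -/
theorem gy_le (hn : 0 < n) {σ : ℝ} (hs0 : 0 ≤ σ) (hs1 : σ ≤ 1 / 10) {p : V n}
    (hp : √(HY.sq p) ≤ 10 / 9) : gy n σ p ≤ 1 / 5 := by
  rw [gy_eq hn]
  have a1 := cs p (e0 n)
  rw [sq_e0 hn, Real.sqrt_one, mul_one] at a1
  have b1 : x0 p ≤ 10 / 9 := a1.trans hp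
  have b2 := sq_le_of hp
  nlinarith

/-- **The bounds of the weight of a package.** -/
theorem wb_pk (hn : 0 < n) {q : Cst} {d : Pk n} (h : PkOk q d) (he : 0 < q.e₁) (hes : q.es ≤ 1)
    (hr : 2 * n < (q.r₁ * Real.exp (-1)) ^ 2) (hr1 : 1 ≤ q.r₁) (hR : 1 ≤ q.R)
    (hCk : 1 ≤ q.Ck) (hM : 0 < q.M₀) (hε0 : 0 ≤ q.ε) (hε : n * q.ε ≤ 1 / 100) (hσ0 : 0 ≤ q.σ)
    (hσ1 : q.σ ≤ 1 / 10) {C : ℝ}
    (hC : ∀ s, 0 < s → Real.log (prS q.e₁ s) ≤ 4 / 5 * √s + C) (hRC : 20 * C ≤ q.R)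
    {Nt B : ℝ} (hB : 0 ≤ B)
    (hdc : ∀ u, 0 ≤ Nt - deriv d.Φ₁ u ∧ Nt - deriv d.Φ₁ u ≤ B * Real.exp (-u)) :
    ∃ u s : VV n → ℝ, Wb q.σ q.R d.kap d.Gs (d.uth q) Nt q.M₀ (B + q.ph.CT * q.M₀) (1 / (4 * n)) 1
      (16 * (1 + √(3 * q.R)))
      (fun z => d.W q (q.R • z) - d.Φ (2 * Real.log (d.kap / q.R))) u s := by
  have hR0 : 0 < q.R := by linarith
  have hkR : q.R ≤ d.kap := by
    have h1 : q.R ^ (1 : ℝ) ≤ q.R ^ q.Ck := Real.rpow_le_rpow_of_exponent_le hR hCk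
    rw [Real.rpow_one] at h1
    exact h1.trans h.kC
  have ht0 : 0 ≤ Real.log (d.kap / q.R) := Real.log_nonneg ((one_le_div₀ hR0).2 hkR)
  have hGs : 0 ≤ -(q.R * d.Gs) := by
    have := h.G0
    nlinarith
  have htT : 2 * Real.log (d.kap / q.R) ≤ d.uth q := by
    unfold Pk.uth Pk.l₀
    linarith
  have hl : ∀ x : V n, √(HY.sq x) ≤ 10 / 9 →
      d.l (q.R • x) = Lu n q.σ q.R d.kap d.Gs x := by
    intro x hx
    have h1 : HY.sq (q.R • x) ≤ (5 / 4 * q.R) ^ 2 := by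
      have e2 : HY.sq (q.R • x) = q.R ^ 2 * HY.sq x := by
        simp only [HY.sq, Pi.smul_apply, smul_eq_mul, mul_pow, Finset.mul_sum]
      rw [e2]
      have h2 := sq_le_of hx
      have h3 : q.R ^ 2 * HY.sq x ≤ q.R ^ 2 * (10 / 9) ^ 2 :=
        mul_le_mul_of_nonneg_left h2 (by positivity)
      nlinarith [sq_nonneg q.R]
    rw [h.lev.eq _ h1]
    unfold lv Lu
    rw [smul_smul, inv_mul_cancel₀ hR0.ne', one_smul]
  have hlt : ∀ x : V n, √(HY.sq x) ≤ 10 / 9 → d.l (q.R • x) ≤ d.l₀ q + 1 / 5 * q.R := by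
    intro x hx
    rw [hl x hx]
    have := gy_le hn hσ0 hσ1 hx
    unfold Lu Pk.l₀
    nlinarith
  refine ⟨_, _, wb_of (l := d.l) (s₁ := d.s₁) (Φ := d.Φ) (μ := d.μc q) (χ := d.χ) (st := st (d.F q))
    hR0 (fun x i j => ?_) hε0 hε (gr_pk h hM hB hdc) (sb_pk hn h he hes hr hr1 hR hC hRC)
    (fun t => ((Pk.μc_abs d q t).trans (h.ph.μb t)).trans (by norm_num)) h.χb ht0 htT hl fun z h1 h2 => ?_⟩
  · have h1 := h.rg.cl₁ i j 0 (Nat.zero_le _) x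
    rw [pow_zero, mul_one, norm_iteratedFDeriv_zero, Real.norm_eq_abs] at h1
    exact h1
  · have e1 : (q.R • z).1 = q.R • z.1 := rfl
    have e2 : (q.R • z).2 = q.R • z.2 := rfl
    have p1 : d.P (q.R • z.1) = q.R • z.1 := h.ret.id _ (by linarith [hlt z.1 h1])
    have p2 : d.P (q.R • z.2) = q.R • z.2 := h.ret.id _ (by linarith [hlt z.2 h2])
    have t1 : d.Θ (d.l (q.R • z.1)) = 0 := h.Θ0 _ (by linarith [hlt z.1 h1])
    have t2 : d.Θ (d.l (q.R • z.2)) = 0 := h.Θ0 _ (by linarith [hlt z.2 h2])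
    have e3 : (q.R • z.1, q.R • z.2) = q.R • z := rfl
    show WT (d.F q) d.Θ d.P d.l (gi d.s₁) (q.R • z) - _ = _
    unfold WT
    rw [e1, e2, p1, p2, t1, t2, e3]
    unfold WW H31.EP.uu
    rw [e1, e2]
    show d.Φ _ + 1 * st (d.F q) _ _ + (0 + 0) - _ = _
    rw [one_mul, add_zero, add_zero]
    rfl

/-- The constant of `prS_exp`. -/
def CP (e₁ : ℝ) : ℝ := if h : 0 < e₁ then (prS_exp h).choose else 0

theorem CP_spec {e₁ : ℝ} (h : 0 < e₁) :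
    ∀ s, 0 < s → Real.log (prS e₁ s) ≤ 4 / 5 * √s + CP e₁ := by
  unfold CP
  rw [dif_pos h]
  exact (prS_exp h).choose_spec.2

/-- The thresholds. -/
structure Thr (n : ℕ) (q : Cst) : Prop where
  σ1 : q.σ ≤ 1 / 10
  es : q.es ≤ 1
  r1 : 0 < q.c' → 1 ≤ q.r₁ ∧ 2 * n < (q.r₁ * Real.exp (-1)) ^ 2
  ε : n * q.ε ≤ 1 / 100
  η : q.η ≤ 1 / 400
  R : 0 < q.M₀ → 20 * CP q.e₁ ≤ q.R ∧ 40 * (n : ℝ) ^ 2 ≤ q.R ∧ 100 ≤ q.R ∧
    2 * q.M₀ + 16 * (1 + √(3 * q.R)) ≤ q.M₀ / 25 * q.R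

theorem ev_sqrt {a b c : ℝ} (hc : 0 < c) : ∀ᶠ t : ℝ in atTop, a + b * (1 + √(3 * t)) ≤ c * t := by
  have h1 : Tendsto (fun t : ℝ => √t) atTop atTop := Real.tendsto_sqrt_atTop
  have h2 : ∀ᶠ s : ℝ in atTop, |a| + |b| * (1 + 2 * s) ≤ c * s ^ 2 := by
    filter_upwards [eventually_ge_atTop 1, eventually_ge_atTop ((|a| + 3 * |b|) / c)] with s h3 h4
    rw [div_le_iff₀ hc] at h4
    have h5 : |a| + |b| * (1 + 2 * s) ≤ (|a| + 3 * |b|) * s := by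
      have := abs_nonneg a
      have := abs_nonneg b
      nlinarith
    have h6 : (|a| + 3 * |b|) * s ≤ (s * c) * s := mul_le_mul_of_nonneg_right h4 (by linarith)
    nlinarith
  filter_upwards [h1.eventually h2, eventually_ge_atTop 0] with t h3 h4
  rw [Real.sq_sqrt h4] at h3
  have h5 : √(3 * t) ≤ 2 * √t := by
    apply Real.sqrt_le_iff.2 ⟨by positivity, ?_⟩
    rw [mul_pow, Real.sq_sqrt h4]
    linarith
  have h6 : b * (1 + √(3 * t)) ≤ |b| * (1 + 2 * √t) := by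
    have h7 : b * (1 + √(3 * t)) ≤ |b| * (1 + √(3 * t)) :=
      mul_le_mul_of_nonneg_right (le_abs_self b) (by positivity)
    have h8 : |b| * (1 + √(3 * t)) ≤ |b| * (1 + 2 * √t) :=
      mul_le_mul_of_nonneg_left (by linarith) (abs_nonneg b)
    linarith
  linarith [le_abs_self a]

theorem thr (n : ℕ) : EvC (Thr n) := by
  have h1 := EvC.at_σ (fun _ t => t ≤ 1 / 10) fun _ => sml_le (by norm_num)
  have h2 := EvC.at_es (fun _ t => t ≤ 1) fun _ => sml_le one_pos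
  have h3 := EvC.at_M₀ (fun q t => 0 < q.c' → 1 ≤ q.c' * t / 2 ∧
    2 * n < (q.c' * t / 2 * Real.exp (-1)) ^ 2) fun q => by
      by_cases hc : 0 < q.c'
      · have he := Real.exp_pos (-1)
        have hk : 0 < q.c' / 2 * Real.exp (-1) := by positivity
        filter_upwards [eventually_ge_atTop (2 / q.c'),
          eventually_ge_atTop ((2 * n + 1) / (q.c' / 2 * Real.exp (-1)))] with t h4 h5 _
        rw [div_le_iff₀ hc] at h4
        rw [div_le_iff₀ hk] at h5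
        have h6 : (2 * n + 1 : ℝ) ≤ q.c' * t / 2 * Real.exp (-1) := by linarith
        have hn0 : (0 : ℝ) ≤ n := Nat.cast_nonneg n
        exact ⟨by linarith, by nlinarith⟩
      · exact Eventually.of_forall fun t h => absurd h hc
  have h4 := EvC.at_ε (fun _ t => n * t ≤ 1 / 100) fun _ => by
    have hn1 : (0 : ℝ) < n + 1 := by positivity
    refine ev_sml (a := 1 / (100 * (n + 1))) (by positivity) fun t h0 h5 => ?_
    rw [le_div_iff₀ (by positivity)] at h5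
    nlinarith
  have h5 := EvC.at_η (fun _ t => t ≤ 1 / 400) fun _ => sml_le (by norm_num)
  have h6 := EvC.at_R (fun q t => 0 < q.M₀ → 20 * CP q.e₁ ≤ t ∧ 40 * (n : ℝ) ^ 2 ≤ t ∧ 100 ≤ t ∧
    2 * q.M₀ + 16 * (1 + √(3 * t)) ≤ q.M₀ / 25 * t) fun q => by
      by_cases hc : 0 < q.M₀
      · filter_upwards [eventually_ge_atTop (20 * CP q.e₁), eventually_ge_atTop (40 * (n : ℝ) ^ 2),
          eventually_ge_atTop 100, ev_sqrt (a := 2 * q.M₀) (b := 16)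
            (show 0 < q.M₀ / 25 by positivity)] with t a1 a2 a3 a4 _
        exact ⟨a1, a2, a3, a4⟩
      · exact Eventually.of_forall fun t h => absurd h hc
  refine ((h1.and h2).and ((h3.and h4).and (h5.and h6))).mono fun q h => ?_
  obtain ⟨⟨a1, a2⟩, ⟨a3, a4⟩, a5, a6⟩ := h
  exact ⟨a1, a2, a3, a4, a5, a6⟩

/-- **W1, W2, W3 of `EBg`** for the weight `z ↦ d.W q (R z) - Φ (2 log (kap / R))`. -/
structure W3F (n : ℕ) (q : Cst) (d : Pk n) (c C ν : ℝ) : Prop where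
  W1 : ∀ x ∈ Zi n, ∀ y ∈ Zi n, ‖x - y‖ ≤ 1 / q.R →
    ν * q.R * (gy n q.σ x - d.Gs) + c * ky n q.σ q.R d.kap d.Gs x ^ 2 * ‖x - y‖ ^ 2 - C ≤
      d.W q (q.R • (x, y)) - d.Φ (2 * Real.log (d.kap / q.R))
  W2 : ∀ p ∈ Ac n (1 / 15) (100 / 99),
    ∀ z ∈ Metric.ball (p, p) (3 * n / (q.R ^ C + ky n q.σ q.R d.kap d.Gs p)),
    d.W q (q.R • z) - d.Φ (2 * Real.log (d.kap / q.R)) ≤
      ν * max (q.R * (gy n q.σ p - d.Gs)) (-Real.log d.kap) + C * (1 + Real.log q.R)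
  W3 : ∀ x ∈ Ac n (1 / 21) (100 / 99), ∀ y ∈ Ac n (1 / 21) (10 / 99),
    d.W q (q.R • (x, y)) - d.Φ (2 * Real.log (d.kap / q.R)) ≤ -(c * q.R) ∧
      d.W q (q.R • (y, x)) - d.Φ (2 * Real.log (d.kap / q.R)) ≤ -(c * q.R)

/-- The lower constant: functions of `n`, `M₀`. -/
def cW (n : ℕ) (q : Cst) : ℝ := min (Real.exp (-(2 * n + 2)) / (8 * n)) (q.M₀ / 25)

/-- The upper constant: a function of `n` and of the constants before `ε`. -/
def CW (n : ℕ) (q : Cst) : ℝ :=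
  2 + 2 * q.Nt + (q.Nt * (2 * n + 5) + 1000 * n ^ 3 + |q.Bt| + q.ph.CT * q.M₀)

/-- **Row W1-W3.** -/
theorem rowW (hn : 0 < n) : EvC fun q => 0 < cW n q ∧ 2 ≤ CW n q ∧ ∀ d : Pk n, PkOk q d →
    ∀ c C : ℝ, c ≤ cW n q → CW n q ≤ C → W3F n q d c C (2 * q.Nt) := by
  refine (EvC.good.and (EvC.pos.and (thr n))).mono fun q hq => ?_
  obtain ⟨⟨hg, hph⟩, ⟨⟨-, he, -⟩, ⟨-, hσ0, hc', -⟩, hM1, hrest⟩, ht⟩ := hq
  obtain ⟨-, hε0, -, hCk, hR1⟩ := hrest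
  have hM : 0 < q.M₀ := by linarith
  obtain ⟨hr1, hr⟩ := ht.r1 hc'
  obtain ⟨t1, t2, t3, t4⟩ := ht.R hM
  have hR0 : 0 < q.R := by linarith
  have hn1 : (1 : ℝ) ≤ n := by exact_mod_cast hn
  have hNt : 0 ≤ q.Nt := by
    have : q.M₀ ≤ q.Nt := hph.N1
    linarith
  have hCT : 0 ≤ q.ph.CT * q.M₀ := mul_nonneg hg.1.CT0.le hM.le
  have hn3 : (0 : ℝ) ≤ 1000 * n ^ 3 := by positivity
  have hNn : 0 ≤ q.Nt * n := by positivity
  have hB0 := abs_nonneg q.Bt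
  refine ⟨lt_min (by positivity) (by positivity), by unfold CW; nlinarith, fun d h c C hc hC => ?_⟩
  have hc1 : c ≤ Real.exp (-(2 * n + 2)) / (8 * n) := hc.trans (min_le_left _ _)
  have hc2 : c ≤ q.M₀ / 25 := hc.trans (min_le_right _ _)
  unfold CW at hC
  have hdc : ∀ u, 0 ≤ q.Nt - deriv d.Φ₁ u ∧ q.Nt - deriv d.Φ₁ u ≤ |q.Bt| * Real.exp (-u) :=
    fun u => ⟨(h.ph.nt u).1, (h.ph.nt u).2.trans
      (mul_le_mul_of_nonneg_right (le_abs_self _) (Real.exp_pos _).le)⟩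
  obtain ⟨u, s, hW⟩ := wb_pk hn h he ht.es hr hr1 hR1 hCk hM hε0.le ht.ε hσ0.le ht.σ1
    (CP_spec he) t1 (abs_nonneg q.Bt) hdc
  have hk0 : 0 < d.kap := by linarith [h.k1]
  refine ⟨fun x hx y hy hxy => ?_, fun p hp z hz => ?_, fun x hx y hy => ?_⟩
  · have h1 := hW.W1 hn hσ0.le ht.σ1 hR1 hk0 hNt (by positivity) x hx y hy hxy
    refine le_trans ?_ h1
    have h2 : c * (ky n q.σ q.R d.kap d.Gs x ^ 2 * ‖x - y‖ ^ 2) ≤
        1 / (4 * n) * Real.exp (-(2 * n + 2)) / 2 *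
          (ky n q.σ q.R d.kap d.Gs x ^ 2 * ‖x - y‖ ^ 2) := by
      refine mul_le_mul_of_nonneg_right (hc1.trans (le_of_eq ?_)) (by positivity)
      field_simp
      ring
    have e1 : c * ky n q.σ q.R d.kap d.Gs x ^ 2 * ‖x - y‖ ^ 2 =
      c * (ky n q.σ q.R d.kap d.Gs x ^ 2 * ‖x - y‖ ^ 2) := by ring
    have e2 : 1 / (4 * n) * Real.exp (-(2 * n + 2)) / 2 * ky n q.σ q.R d.kap d.Gs x ^ 2 *
      ‖x - y‖ ^ 2 = 1 / (4 * n) * Real.exp (-(2 * n + 2)) / 2 *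
        (ky n q.σ q.R d.kap d.Gs x ^ 2 * ‖x - y‖ ^ 2) := by ring
    rw [e1, e2]
    linarith
  · have hT : (203 / 10000 + 4 * q.η) * q.R + 3 ≤ d.uth q := by
      have h1 : 0 ≤ -(q.R * d.Gs) := by
        have := h.G0
        nlinarith
      have hkR : q.R ≤ d.kap := by
        have h1 : q.R ^ (1 : ℝ) ≤ q.R ^ q.Ck := Real.rpow_le_rpow_of_exponent_le hR1 hCk
        rw [Real.rpow_one] at h1
        exact h1.trans h.kC
      have ht0 : 0 ≤ Real.log (d.kap / q.R) := Real.log_nonneg ((one_le_div₀ hR0).2 hkR)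
      have h3 : q.η * q.R ≤ 1 / 400 * q.R := mul_le_mul_of_nonneg_right ht.η hR0.le
      unfold Pk.uth Pk.l₀
      linarith
    have h1 := hW.W2 hn hσ0.le ht.σ1 hR1 t2 h.k1 hNt zero_le_one (C := C) (by nlinarith) h.G1 h.kη
      hT p hp z hz
    refine h1.trans ?_
    have hlR : 0 ≤ Real.log q.R := Real.log_nonneg hR1
    have hCN : 2 * q.Nt ≤ C := by nlinarith
    have h2 := mul_le_mul_of_nonneg_right hCN hlR
    linarith
  · have h1 := hW.W3 hn hσ0.le ht.σ1 t3 h.k1 hM ht.η h.G1 h.kη t4 x hx y hy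
    have h2 := mul_le_mul_of_nonneg_right hc2 hR0.le
    exact ⟨h1.1.trans (by linarith), h1.2.trans (by linarith)⟩

end Vale.Agent.P088.R2.H281.EP
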