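import Vale.Agent.P088.R2.H281.EP.Geo
import Vale.Agent.P088.R2.H269.X.Spec

/-!
# P088, stage 3, EST': the size of the weight in the unit chart

`Wb`: bounds of a weight `W` by its level `u` and `s = r²`, with constants independent of `R`.
`Wb.W1`, `Wb.W2`, `Wb.W3`: the fields W1, W2, W3 of `EB` (W2 with `C (1 + log R)`).
The form of the weight plays no role here.
-/

open Set Filter Topology

noncomputable section

namespace Vale.Agent.P088.R2.H281.EP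

open Vale.Agent.P088.LR Vale.Agent.P088.HY Vale.Agent.P088.HY.T3 Vale.Agent.P088.HY.T4
open Vale.Agent.P088.R2.H269 (ky Zi)

variable {n : ℕ}

/-- The level function in the unit chart. -/
def Lu (n : ℕ) (σ R kap Gs : ℝ) (x : V n) : ℝ := Real.log (kap / R) + R * (gy n σ x - Gs)

/-- Bounds of a weight by its level `u` and by `s = r²`, unit chart, `t = 2 log (kap / R)`. -/
structure Wb (σ R kap Gs T Nt M0 B c0 C0 D0 : ℝ) (W u s : VV n → ℝ) : Prop where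
  hu : ∀ z : VV n, √(HY.sq z.1) ≤ 10 / 9 → √(HY.sq z.2) ≤ 10 / 9 →
    |u z - (Lu n σ R kap Gs z.1 + Lu n σ R kap Gs z.2)| ≤ 2
  s1 : ∀ z : VV n, √(HY.sq z.1) ≤ 10 / 9 → √(HY.sq z.2) ≤ 10 / 9 →
    1 / 2 * (R ^ 2 * HY.sq (z.1 - z.2)) ≤ s z
  s2 : ∀ z : VV n, √(HY.sq z.1) ≤ 10 / 9 → √(HY.sq z.2) ≤ 10 / 9 →
    s z ≤ (81 / 80) ^ 2 * (R ^ 2 * HY.sq (z.1 - z.2))
  lo : ∀ z : VV n, √(HY.sq z.1) ≤ 10 / 9 → √(HY.sq z.2) ≤ 10 / 9 → s z ≤ 2 * n →
    Nt * (u z - 2 * Real.log (kap / R)) + c0 * (Real.exp (u z) * s z) - B ≤ W z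
  up : ∀ z : VV n, √(HY.sq z.1) ≤ 10 / 9 → √(HY.sq z.2) ≤ 10 / 9 → s z ≤ 1 → u z ≤ T →
    W z ≤ Nt * (max (u z) 0 - 2 * Real.log (kap / R)) + C0 * (Real.exp (u z) * s z) + B
  fa : ∀ z : VV n, √(HY.sq z.1) ≤ 10 / 9 → √(HY.sq z.2) ≤ 10 / 9 →
    u z ≤ 2 * Real.log (kap / R) → u z + 4 / 5 * √(s z) ≤ -(R / 20) →
    W z ≤ -(M0 * (2 * Real.log (kap / R) - u z)) + D0

theorem sq_le_norm (x : V n) : HY.sq x ≤ n * ‖x‖ ^ 2 := by
  have h : ∀ i ∈ Finset.univ, x i ^ 2 ≤ ‖x‖ ^ 2 := fun i _ => by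
    have := norm_le_pi_norm x i
    rw [Real.norm_eq_abs] at this
    rw [← sq_abs]
    exact pow_le_pow_left₀ (abs_nonneg _) this 2
  have := Finset.sum_le_sum h
  rw [Finset.sum_const, Finset.card_univ, Fintype.card_fin, nsmul_eq_mul] at this
  exact this

theorem norm_le_sq (x : V n) : ‖x‖ ^ 2 ≤ HY.sq x := by
  have h1 : ‖x‖ ≤ √(HY.sq x) := by
    refine (pi_norm_le_iff_of_nonneg (Real.sqrt_nonneg _)).2 fun i => ?_
    rw [Real.norm_eq_abs]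
    refine Real.abs_le_sqrt ?_
    exact Finset.single_le_sum (f := fun i => x i ^ 2) (fun _ _ => sq_nonneg _) (Finset.mem_univ i)
  calc ‖x‖ ^ 2 ≤ √(HY.sq x) ^ 2 := pow_le_pow_left₀ (norm_nonneg _) h1 2
    _ = HY.sq x := Real.sq_sqrt (sq_nn x)

theorem ky_eq {σ R kap Gs : ℝ} (hR : 0 < R) (hk : 0 < kap) (x : V n) :
    ky n σ R kap Gs x = R * Real.exp (Lu n σ R kap Gs x) := by
  unfold ky Lu
  rw [Real.exp_add, Real.exp_log (by positivity)]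
  field_simp

theorem Lu_lip (hn : 0 < n) {σ R kap Gs : ℝ} (hR : 0 ≤ R) (h0 : 0 ≤ σ) (h1 : σ ≤ 1 / 10) {x y : V n}
    (hx : HY.sq x ≤ 4) (hy : HY.sq y ≤ 4) :
    |Lu n σ R kap Gs x - Lu n σ R kap Gs y| ≤ R * (2 * n * ‖x - y‖) := by
  have h := gy_lip hn h0 h1 hx hy
  have e : Lu n σ R kap Gs x - Lu n σ R kap Gs y = R * (gy n σ x - gy n σ y) := by
    unfold Lu; ring
  rw [e, abs_mul, abs_of_nonneg hR]
  exact mul_le_mul_of_nonneg_left h hR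

theorem sq_le_of {x : V n} {a : ℝ} (h : √(HY.sq x) ≤ a) : HY.sq x ≤ a ^ 2 := by
  have := Real.sq_sqrt (sq_nn x)
  nlinarith [Real.sqrt_nonneg (HY.sq x)]

variable {σ R kap Gs T Nt M0 B c0 C0 D0 : ℝ} {W u s : VV n → ℝ}

/-- **W1.** -/
theorem Wb.W1 (h : Wb σ R kap Gs T Nt M0 B c0 C0 D0 W u s) (hn : 0 < n) (hs0 : 0 ≤ σ)
    (hs1 : σ ≤ 1 / 10) (hR : 1 ≤ R) (hk : 0 < kap) (hN : 0 ≤ Nt) (hc : 0 ≤ c0) :
    ∀ x ∈ Zi n, ∀ y ∈ Zi n, ‖x - y‖ ≤ 1 / R →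
      2 * Nt * R * (gy n σ x - Gs) +
        c0 * Real.exp (-(2 * n + 2)) / 2 * ky n σ R kap Gs x ^ 2 * ‖x - y‖ ^ 2 -
        (Nt * (2 * n + 2) + B) ≤ W (x, y) := by
  intro x hx y hy hxy
  have hR0 : 0 < R := by linarith
  have hx2 : √(HY.sq x) ≤ 10 / 9 := hx.2
  have hy2 : √(HY.sq y) ≤ 10 / 9 := hy.2
  have hx4 : HY.sq x ≤ 4 := (sq_le_of hx2).trans (by norm_num)
  have hy4 : HY.sq y ≤ 4 := (sq_le_of hy2).trans (by norm_num)
  have hRxy : R * ‖x - y‖ ≤ 1 := by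
    rw [le_div_iff₀ hR0] at hxy
    linarith
  have hRxy0 : 0 ≤ R * ‖x - y‖ := by positivity
  have hL := Lu_lip hn (kap := kap) (Gs := Gs) hR0.le hs0 hs1 hx4 hy4
  have hL1 : Lu n σ R kap Gs x - 2 * n ≤ Lu n σ R kap Gs y := by
    have h1 := (abs_le.1 hL).2
    have h2 : R * (2 * n * ‖x - y‖) ≤ 2 * n := by
      have : R * (2 * n * ‖x - y‖) = 2 * n * (R * ‖x - y‖) := by ring
      rw [this]
      have hn' : (0 : ℝ) ≤ 2 * n := by positivity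
      nlinarith
    linarith
  have hu := (abs_le.1 (h.hu (x, y) hx2 hy2)).1
  simp only at hu
  have hu1 : 2 * Lu n σ R kap Gs x - (2 * n + 2) ≤ u (x, y) := by linarith
  have hs1' := h.s1 (x, y) hx2 hy2
  have hs2' := h.s2 (x, y) hx2 hy2
  simp only at hs1' hs2'
  have hs3 : s (x, y) ≤ 2 * n := by
    refine hs2'.trans ?_
    have h1 : R ^ 2 * HY.sq (x - y) ≤ R ^ 2 * (n * ‖x - y‖ ^ 2) :=
      mul_le_mul_of_nonneg_left (sq_le_norm _) (by positivity)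
    have h2 : R ^ 2 * (n * ‖x - y‖ ^ 2) = n * (R * ‖x - y‖) ^ 2 := by ring
    have h3 : (R * ‖x - y‖) ^ 2 ≤ 1 := pow_le_one₀ hRxy0 hRxy
    have hn' : (0 : ℝ) ≤ n := by positivity
    have h4 : (n : ℝ) * (R * ‖x - y‖) ^ 2 ≤ n := by nlinarith
    nlinarith
  have hlo := h.lo (x, y) hx2 hy2 hs3
  have e1 : Lu n σ R kap Gs x - Real.log (kap / R) = R * (gy n σ x - Gs) := by
    unfold Lu; ring
  have hA : 2 * Nt * R * (gy n σ x - Gs) - Nt * (2 * n + 2) ≤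
      Nt * (u (x, y) - 2 * Real.log (kap / R)) := by
    have : 2 * Nt * R * (gy n σ x - Gs) - Nt * (2 * n + 2) =
        Nt * (2 * Lu n σ R kap Gs x - (2 * n + 2) - 2 * Real.log (kap / R)) := by
      have : R * (gy n σ x - Gs) = Lu n σ R kap Gs x - Real.log (kap / R) := e1.symm
      linear_combination 2 * Nt * this
    rw [this]
    exact mul_le_mul_of_nonneg_left (by linarith) hN
  have hE : Real.exp (-(2 * n + 2)) / 2 * ky n σ R kap Gs x ^ 2 * ‖x - y‖ ^ 2 ≤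
      Real.exp (u (x, y)) * s (x, y) := by
    rw [ky_eq hR0 hk]
    have h1 : Real.exp (-(2 * n + 2)) * Real.exp (Lu n σ R kap Gs x) ^ 2 ≤ Real.exp (u (x, y)) := by
      rw [← Real.exp_nat_mul, ← Real.exp_add]
      refine Real.exp_le_exp.2 ?_
      push_cast
      linarith
    have h2 : 1 / 2 * (R ^ 2 * ‖x - y‖ ^ 2) ≤ s (x, y) := by
      refine le_trans ?_ hs1'
      have := norm_le_sq (x - y)
      have hR2 : 0 ≤ R ^ 2 := by positivity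
      nlinarith
    have h3 : Real.exp (-(2 * n + 2)) / 2 * (R * Real.exp (Lu n σ R kap Gs x)) ^ 2 * ‖x - y‖ ^ 2 =
        (Real.exp (-(2 * n + 2)) * Real.exp (Lu n σ R kap Gs x) ^ 2) *
          (1 / 2 * (R ^ 2 * ‖x - y‖ ^ 2)) := by ring
    rw [h3]
    exact mul_le_mul h1 h2 (by positivity) (Real.exp_pos _).le
  have hE' := mul_le_mul_of_nonneg_left hE hc
  have e2 : c0 * (Real.exp (-(2 * n + 2)) / 2 * ky n σ R kap Gs x ^ 2 * ‖x - y‖ ^ 2) =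
      c0 * Real.exp (-(2 * n + 2)) / 2 * ky n σ R kap Gs x ^ 2 * ‖x - y‖ ^ 2 := by ring
  rw [e2] at hE'
  linarith

/-- The level on `|p| ≤ 100 / 99`. -/
theorem gy_top (hn : 0 < n) (hs0 : 0 ≤ σ) (hs1 : σ ≤ 1 / 10) {p : V n}
    (hp : √(HY.sq p) ≤ 100 / 99) : gy n σ p ≤ 203 / 20000 := by
  rw [gy_eq hn]
  have a1 := cs p (e0 n)
  rw [sq_e0 hn, Real.sqrt_one, mul_one] at a1
  have b1 : x0 p ≤ 100 / 99 := a1.trans hp
  have b2 := sq_le_of hp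
  nlinarith

theorem rho_small {m R ρ : ℝ} (hm : 1 ≤ m) (hR : 1 ≤ R) (hR1 : 40 * m ^ 2 ≤ R)
    (hρ1 : ρ * R ^ 2 ≤ 3 * m) : m * (ρ * R) ≤ 3 / 40 := by
  have hR0 : 0 < R := by linarith
  have h1 : m * (ρ * R) * R ≤ 3 * m ^ 2 := by
    have e : m * (ρ * R) * R = m * (ρ * R ^ 2) := by ring
    rw [e]
    have := mul_le_mul_of_nonneg_left hρ1 (show (0 : ℝ) ≤ m by linarith)
    linarith
  have h3 : m * (ρ * R) * R ≤ 3 / 40 * R := by linarith
  exact le_of_mul_le_mul_right h3 hR0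

/-- Points near `p`. -/
theorem pt_near (hn : 0 < n) {ρ : ℝ} (hρ0 : 0 < ρ) (hR : 1 ≤ R) (hρ3 : n * (ρ * R) ≤ 3 / 40)
    {p w : V n} (hp2 : √(HY.sq p) ≤ 100 / 99) (hw : ‖w - p‖ < ρ) :
    √(HY.sq w) ≤ 10 / 9 ∧ R * (2 * n * ‖w - p‖) ≤ 1 / 2 := by
  have hn1 : (1 : ℝ) ≤ n := by exact_mod_cast hn
  constructor
  · have h2 := cs (w - p) p
    have h3 : √(HY.sq (w - p)) ≤ n * ρ := by
      apply Real.sqrt_le_iff.2 ⟨by positivity, ?_⟩
      refine (sq_le_norm _).trans ?_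
      have h4 : ‖w - p‖ ^ 2 ≤ ρ ^ 2 := pow_le_pow_left₀ (norm_nonneg _) hw.le 2
      have h5 : (n : ℝ) * ‖w - p‖ ^ 2 ≤ n * ρ ^ 2 := mul_le_mul_of_nonneg_left h4 (by positivity)
      have h6 : (n : ℝ) * ρ ^ 2 ≤ n ^ 2 * ρ ^ 2 :=
        mul_le_mul_of_nonneg_right (by nlinarith) (by positivity)
      have e6 : (n : ℝ) ^ 2 * ρ ^ 2 = (n * ρ) ^ 2 := by ring
      linarith
    have h7 : (n : ℝ) * ρ ≤ n * (ρ * R) := by
      apply mul_le_mul_of_nonneg_left _ (by positivity)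
      have := mul_le_mul_of_nonneg_left hR hρ0.le
      linarith
    have h1 : HY.sq w = HY.sq (w - p) + HY.sq p + 2 * ∑ i, (w - p) i * p i := by
      simp only [HY.sq, Pi.sub_apply]
      rw [Finset.mul_sum, ← Finset.sum_add_distrib, ← Finset.sum_add_distrib]
      exact Finset.sum_congr rfl fun i _ => by ring
    have h8 : √(HY.sq w) ≤ √(HY.sq (w - p)) + √(HY.sq p) := by
      apply Real.sqrt_le_iff.2 ⟨by positivity, ?_⟩
      have e1 := Real.sq_sqrt (sq_nn (w - p))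
      have e2 := Real.sq_sqrt (sq_nn p)
      have e3 : (√(HY.sq (w - p)) + √(HY.sq p)) ^ 2 = √(HY.sq (w - p)) ^ 2 + √(HY.sq p) ^ 2 +
          2 * (√(HY.sq (w - p)) * √(HY.sq p)) := by ring
      rw [e3, e1, e2, h1]
      linarith
    linarith
  · have h1 : R * (2 * n * ‖w - p‖) ≤ R * (2 * n * ρ) := by gcongr
    have h2 : R * (2 * n * ρ) = 2 * (n * (ρ * R)) := by ring
    linarith

/-- The stiff part near the diagonal. -/
theorem stiff_near {E s0 Lp ρ : ℝ} (hn : 0 < n) (hs : 0 ≤ s0)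
    (hE : E ≤ Real.exp (2 * Lp + 3)) (hs3 : s0 ≤ (81 / 80) ^ 2 * (R ^ 2 * (n * (2 * ρ) ^ 2)))
    (hkp : R * Real.exp Lp * ρ ≤ 3 * n) (h0 : 0 ≤ R * Real.exp Lp * ρ) :
    E * s0 ≤ 1000 * n ^ 3 := by
  have h1 : E ≤ Real.exp Lp ^ 2 * Real.exp 3 := by
    refine hE.trans (le_of_eq ?_)
    rw [← Real.exp_nat_mul, ← Real.exp_add]
    push_cast
    ring_nf
  have h3 : Real.exp 3 ≤ 21 := by
    have := Real.exp_one_lt_d9
    have e : Real.exp 3 = Real.exp 1 ^ 3 := by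
      rw [← Real.exp_nat_mul]; norm_num
    rw [e]
    have h0 := Real.exp_pos 1
    calc Real.exp 1 ^ 3 ≤ (2.7182818286 : ℝ) ^ 3 := pow_le_pow_left₀ h0.le this.le 3
      _ ≤ 21 := by norm_num
  have hkp2 : (R * Real.exp Lp * ρ) ^ 2 ≤ (3 * n) ^ 2 := pow_le_pow_left₀ h0 hkp 2
  have hn1 : (0 : ℝ) < n := by exact_mod_cast hn
  calc E * s0 ≤ (Real.exp Lp ^ 2 * Real.exp 3) * s0 := mul_le_mul_of_nonneg_right h1 hs
    _ ≤ (Real.exp Lp ^ 2 * 21) * s0 := by gcongr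
    _ ≤ (Real.exp Lp ^ 2 * 21) * ((81 / 80) ^ 2 * (R ^ 2 * (n * (2 * ρ) ^ 2))) := by gcongr
    _ = 21 * (81 / 80) ^ 2 * 4 * n * (R * Real.exp Lp * ρ) ^ 2 := by ring
    _ ≤ 21 * (81 / 80) ^ 2 * 4 * n * (3 * n) ^ 2 := mul_le_mul_of_nonneg_left hkp2 (by positivity)
    _ ≤ 1000 * n ^ 3 := by
        have : (0 : ℝ) ≤ (n : ℝ) ^ 3 := by positivity
        nlinarith

/-- The level at the top. -/
theorem Lu_top (hn : 0 < n) (hs0 : 0 ≤ σ) (hs1 : σ ≤ 1 / 10) (hR : 1 ≤ R) (hk : 1 ≤ kap) {η : ℝ}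
    (hG : -η ≤ Gs) (hkη : kap ≤ Real.exp (η * R)) {p : V n} (hp2 : √(HY.sq p) ≤ 100 / 99) :
    2 * Lu n σ R kap Gs p ≤ (203 / 10000 + 4 * η) * R := by
  have hR0 : 0 < R := by linarith
  have hk0 : 0 < kap := by linarith
  have hlog : Real.log (kap / R) = Real.log kap - Real.log R := Real.log_div hk0.ne' hR0.ne'
  have hlR : 0 ≤ Real.log R := Real.log_nonneg hR
  have hlk : Real.log kap ≤ η * R := by
    have := Real.log_le_log hk0 hkη
    rwa [Real.log_exp] at this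
  have hgt := gy_top hn hs0 hs1 hp2
  have h1 : R * (gy n σ p - Gs) ≤ R * (203 / 20000 + η) :=
    mul_le_mul_of_nonneg_left (by linarith) hR0.le
  unfold Lu
  rw [hlog]
  linarith

/-- **W2** with a logarithm. -/
theorem Wb.W2 (h : Wb σ R kap Gs T Nt M0 B c0 C0 D0 W u s) (hn : 0 < n) (hs0 : 0 ≤ σ)
    (hs1 : σ ≤ 1 / 10) (hR : 1 ≤ R) (hR1 : 40 * (n : ℝ) ^ 2 ≤ R) (hk : 1 ≤ kap) (hN : 0 ≤ Nt)
    (hC0 : 0 ≤ C0) {η C : ℝ} (hC : 2 ≤ C) (hG : -η ≤ Gs) (hkη : kap ≤ Real.exp (η * R))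
    (hT : (203 / 10000 + 4 * η) * R + 3 ≤ T) :
    ∀ p ∈ Ac n (1 / 15) (100 / 99),
      ∀ z ∈ Metric.ball (p, p) (3 * n / (R ^ C + ky n σ R kap Gs p)),
      W z ≤ 2 * Nt * max (R * (gy n σ p - Gs)) (-Real.log kap) + 2 * Nt * Real.log R +
        (3 * Nt + 1000 * n ^ 3 * C0 + B) := by
  intro p hp z hz
  have hR0 : 0 < R := by linarith
  have hk0 : 0 < kap := by linarith
  have hn1 : (1 : ℝ) ≤ n := by exact_mod_cast hn
  obtain ⟨ρ, hρ⟩ : ∃ ρ : ℝ, ρ = 3 * n / (R ^ C + ky n σ R kap Gs p) := ⟨_, rfl⟩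
  rw [← hρ] at hz
  obtain ⟨x, y⟩ := z
  have hxy : dist x p < ρ ∧ dist y p < ρ := by
    rw [Metric.mem_ball, Prod.dist_eq, max_lt_iff] at hz
    exact hz
  rw [dist_eq_norm, dist_eq_norm] at hxy
  obtain ⟨hxp, hyp⟩ := hxy
  have hky0 : 0 < ky n σ R kap Gs p := by unfold ky; positivity
  have hRC : R ^ (2 : ℝ) ≤ R ^ C := Real.rpow_le_rpow_of_exponent_le hR hC
  have hR2 : R ^ (2 : ℝ) = R ^ 2 := by
    have := Real.rpow_natCast R 2
    simp only [Nat.cast_ofNat] at this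
    exact this
  rw [hR2] at hRC
  have hRC0 : 0 < R ^ C + ky n σ R kap Gs p := by positivity
  have hρ0 : 0 < ρ := by rw [hρ]; positivity
  have hρ1 : ρ * R ^ 2 ≤ 3 * n := by
    rw [hρ, div_mul_eq_mul_div, div_le_iff₀ hRC0]
    exact mul_le_mul_of_nonneg_left (by linarith) (by positivity)
  have hρ2 : ρ * ky n σ R kap Gs p ≤ 3 * n := by
    rw [hρ, div_mul_eq_mul_div, div_le_iff₀ hRC0]
    have h0 : 0 < R ^ C := Real.rpow_pos_of_pos hR0 C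
    exact mul_le_mul_of_nonneg_left (by linarith) (by positivity)
  have hρ3 := rho_small hn1 hR hR1 hρ1
  have hp2 : √(HY.sq p) ≤ 100 / 99 := hp.2
  obtain ⟨hx2, hx5⟩ := pt_near hn hρ0 hR hρ3 hp2 hxp
  obtain ⟨hy2, hy5⟩ := pt_near hn hρ0 hR hρ3 hp2 hyp
  have hx4 : HY.sq x ≤ 4 := (sq_le_of hx2).trans (by norm_num)
  have hy4 : HY.sq y ≤ 4 := (sq_le_of hy2).trans (by norm_num)
  have hp4 : HY.sq p ≤ 4 := (sq_le_of hp2).trans (by norm_num)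
  have hLx := (abs_le.1 (Lu_lip hn (kap := kap) (Gs := Gs) hR0.le hs0 hs1 hx4 hp4)).2
  have hLy := (abs_le.1 (Lu_lip hn (kap := kap) (Gs := Gs) hR0.le hs0 hs1 hy4 hp4)).2
  have hu := (abs_le.1 (h.hu (x, y) hx2 hy2)).2
  simp only at hu
  have hLpT := Lu_top hn hs0 hs1 hR hk hG hkη hp2
  have hkyp := ky_eq (σ := σ) (Gs := Gs) hR0 hk0 p
  have hLpe : Lu n σ R kap Gs p = Real.log (kap / R) + R * (gy n σ p - Gs) := rfl
  obtain ⟨Lp, hLp⟩ : ∃ Lp, Lp = Lu n σ R kap Gs p := ⟨_, rfl⟩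
  rw [← hLp] at hLx hLy hLpT hkyp hLpe
  have hu1 : u (x, y) ≤ 2 * Lp + 3 := by linarith
  have huT : u (x, y) ≤ T := by linarith
  -- the distance
  have hd : ‖x - y‖ ≤ 2 * ρ := by
    have : x - y = (x - p) - (y - p) := by abel
    rw [this]
    have := norm_sub_le (x - p) (y - p)
    linarith
  have hs2' := h.s2 (x, y) hx2 hy2
  have hs1' := h.s1 (x, y) hx2 hy2
  simp only at hs2' hs1'
  have hs3 : s (x, y) ≤ (81 / 80) ^ 2 * (R ^ 2 * (n * (2 * ρ) ^ 2)) := by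
    refine hs2'.trans ?_
    refine mul_le_mul_of_nonneg_left (mul_le_mul_of_nonneg_left ((sq_le_norm _).trans ?_)
      (by positivity)) (by positivity)
    exact mul_le_mul_of_nonneg_left (pow_le_pow_left₀ (norm_nonneg _) hd 2) (by positivity)
  have hs4 : s (x, y) ≤ 1 := by
    refine hs3.trans ?_
    have e1 : (81 / 80 : ℝ) ^ 2 * (R ^ 2 * (n * (2 * ρ) ^ 2)) =
        (81 / 80) ^ 2 * 4 * (n * (ρ * R) ^ 2) := by ring
    rw [e1]
    have h1 : (n : ℝ) * (ρ * R) ^ 2 ≤ n ^ 2 * (ρ * R) ^ 2 :=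
      mul_le_mul_of_nonneg_right (by nlinarith) (by positivity)
    have e2 : (n : ℝ) ^ 2 * (ρ * R) ^ 2 = (n * (ρ * R)) ^ 2 := by ring
    have h2 : (n * (ρ * R)) ^ 2 ≤ (3 / 40) ^ 2 := pow_le_pow_left₀ (by positivity) hρ3 2
    linarith
  have hup := h.up (x, y) hx2 hy2 hs4 huT
  -- the stiff part
  have hs0' : 0 ≤ s (x, y) := le_trans (mul_nonneg (by norm_num)
    (mul_nonneg (by positivity) (sq_nn _))) hs1'
  have hkp : R * Real.exp Lp * ρ ≤ 3 * n := by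
    rw [hkyp] at hρ2
    linarith
  have hE : Real.exp (u (x, y)) * s (x, y) ≤ 1000 * n ^ 3 :=
    stiff_near hn hs0' (Real.exp_le_exp.2 hu1) hs3 hkp (by positivity)
  have hE' := mul_le_mul_of_nonneg_left hE hC0
  -- the slope
  have hlog : Real.log (kap / R) = Real.log kap - Real.log R := Real.log_div hk0.ne' hR0.ne'
  have hlR : 0 ≤ Real.log R := Real.log_nonneg hR
  have m1 : R * (gy n σ p - Gs) ≤ max (R * (gy n σ p - Gs)) (-Real.log kap) := le_max_left _ _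
  have m2 : -Real.log kap ≤ max (R * (gy n σ p - Gs)) (-Real.log kap) := le_max_right _ _
  obtain ⟨mx, hmx⟩ : ∃ mx, mx = max (R * (gy n σ p - Gs)) (-Real.log kap) := ⟨_, rfl⟩
  rw [← hmx] at m1 m2 ⊢
  have hmax : max (u (x, y)) 0 - 2 * Real.log (kap / R) ≤ 2 * mx + 2 * Real.log R + 3 := by
    have : max (u (x, y)) 0 ≤ 2 * mx + 2 * Real.log R + 3 + 2 * Real.log (kap / R) := by
      refine max_le ?_ ?_
      · rw [hLpe] at hu1
        linarith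
      · rw [hlog]
        linarith
    linarith
  have hS := mul_le_mul_of_nonneg_left hmax hN
  calc W (x, y) ≤ Nt * (2 * mx + 2 * Real.log R + 3) + C0 * (1000 * n ^ 3) + B := by linarith
    _ = _ := by ring

/-- **W3.** -/
theorem Wb.W3 (h : Wb σ R kap Gs T Nt M0 B c0 C0 D0 W u s) (hn : 0 < n) (hs0 : 0 ≤ σ)
    (hs1 : σ ≤ 1 / 10) (hR : 100 ≤ R) (hk : 1 ≤ kap) (hM : 0 < M0) {η : ℝ} (hη : η ≤ 1 / 400)
    (hG : -η ≤ Gs) (hkη : kap ≤ Real.exp (η * R)) (hR1 : 2 * M0 + D0 ≤ M0 / 25 * R) :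
    ∀ x ∈ Ac n (1 / 21) (100 / 99), ∀ y ∈ Ac n (1 / 21) (10 / 99),
      W (x, y) ≤ -(M0 / 25 * R) ∧ W (y, x) ≤ -(M0 / 25 * R) := by
  intro x hx y hy
  have hR0 : 0 < R := by linarith
  have hk0 : 0 < kap := by linarith
  have hx1 : √(HY.sq x) ≤ 100 / 99 := hx.2
  have hy1 : √(HY.sq y) ≤ 10 / 99 := hy.2
  have hx2 : √(HY.sq x) ≤ 10 / 9 := hx1.trans (by norm_num)
  have hy2 : √(HY.sq y) ≤ 10 / 9 := hy1.trans (by norm_num)
  have hgf := gy_far hn (τ := 81 / 100) hs0 hs1 hx1 hy1 (by norm_num) (by norm_num) (by norm_num)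
  have hgf' : gy n σ x + gy n σ y + 81 / 100 * √(HY.sq (x - y)) ≤ -(19 / 200) := by
    refine hgf.trans ?_
    nlinarith
  have hlog : Real.log (kap / R) = Real.log kap - Real.log R := Real.log_div hk0.ne' hR0.ne'
  have hlR : 0 ≤ Real.log R := Real.log_nonneg (by linarith)
  have hlk : Real.log kap ≤ η * R := by
    have := Real.log_le_log hk0 hkη
    rwa [Real.log_exp] at this
  have hsym : HY.sq (y - x) = HY.sq (x - y) := by
    simp only [HY.sq, Pi.sub_apply]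
    exact Finset.sum_congr rfl fun i _ => by ring
  -- the general estimate
  have key : ∀ z : VV n, √(HY.sq z.1) ≤ 10 / 9 → √(HY.sq z.2) ≤ 10 / 9 →
      gy n σ z.1 + gy n σ z.2 = gy n σ x + gy n σ y →
      HY.sq (z.1 - z.2) = HY.sq (x - y) → W z ≤ -(M0 / 25 * R) := by
    intro z h1 h2 h3 h4
    have hu := (abs_le.1 (h.hu z h1 h2)).2
    have hs2' := h.s2 z h1 h2
    rw [h4] at hs2'
    have hsum : Lu n σ R kap Gs z.1 + Lu n σ R kap Gs z.2 =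
        2 * Real.log (kap / R) + R * (gy n σ x + gy n σ y) - 2 * R * Gs := by
      rw [← h3]
      unfold Lu
      ring
    have hD0 : 0 ≤ √(HY.sq (x - y)) := Real.sqrt_nonneg _
    have hsq : √(s z) ≤ 81 / 80 * (R * √(HY.sq (x - y))) := by
      apply Real.sqrt_le_iff.2 ⟨by positivity, ?_⟩
      refine hs2'.trans (le_of_eq ?_)
      rw [mul_pow, mul_pow, Real.sq_sqrt (sq_nn _)]
    have hRG : -(2 * R * Gs) ≤ 2 * (η * R) := by nlinarith
    have hg1 : R * (gy n σ x + gy n σ y) + 81 / 100 * (R * √(HY.sq (x - y))) ≤ -(19 / 200) * R := by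
      have := mul_le_mul_of_nonneg_left hgf' hR0.le
      linarith
    have hηR : η * R ≤ R / 400 := by
      have := mul_le_mul_of_nonneg_right hη hR0.le
      linarith
    have hRD : 0 ≤ R * √(HY.sq (x - y)) := by positivity
    have hu1 : u z ≤ 2 * Real.log (kap / R) + R * (gy n σ x + gy n σ y) + 2 * (η * R) + 2 := by
      linarith
    have hu2 : u z ≤ 2 * Real.log (kap / R) - 9 / 100 * R + 2 := by linarith
    have hu3 : u z ≤ 2 * Real.log (kap / R) := by linarith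
    have hf : u z + 4 / 5 * √(s z) ≤ -(R / 20) := by
      have : 4 / 5 * √(s z) ≤ 81 / 100 * (R * √(HY.sq (x - y))) := by linarith
      linarith
    have hW := h.fa z h1 h2 hu3 hf
    have hM1 : M0 * (9 / 100 * R - 2) ≤ M0 * (2 * Real.log (kap / R) - u z) :=
      mul_le_mul_of_nonneg_left (by linarith) hM.le
    nlinarith
  exact ⟨key (x, y) hx2 hy2 rfl rfl, key (y, x) hy2 hx2 (add_comm _ _) hsym⟩

end Vale.Agent.P088.R2.H281.EP
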